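/-
Row 323, block GAP (R323/Gap, prefix gp_).  Architect: helper137.
Polar coordinates for homogeneous functions, Gaussian moments of homogeneous functions.
-/
import Claimed.Agent.R260.GKIbp

set_option autoImplicit false

namespace Claimed.Agent.R323

open MeasureTheory ProbabilityTheory Filter Topology Set Metric
open Claimed.Agent.R260 (EE gam)

/-- positive homogeneity of degree `k` (off the origin). -/
def GpHom (n : ℕ) (k : ℝ) (h : EE n → ℝ) : Prop :=
  ∀ t : ℝ, 0 < t → ∀ x : EE n, x ≠ 0 → h (t • x) = t ^ k * h x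

/-- the integral over the unit sphere (unnormalised surface measure). -/
noncomputable def gpS (n : ℕ) (h : EE n → ℝ) : ℝ :=
  ∫ ω : sphere (0 : EE n) 1, h ω ∂(volume : Measure (EE n)).toSphere

/-- the radial Gaussian integrals. -/
noncomputable def gpI (a : ℝ) : ℝ := ∫ r in Ioi (0 : ℝ), r ^ a * Real.exp (-(1 / 2) * r ^ (2 : ℝ))

/-- generates the equation lemmas of the definitions above in this file (rule 6: unique names) -/
theorem gp_polar_eqns_cite : True := by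
  have := @GpHom.eq_1
  have := @gpS.eq_1
  have := @gpI.eq_1
  trivial

/-- **polar coordinates** for (radial) x (homogeneous).  No measurability or integrability needed. -/
theorem gp_polar {n : ℕ} (hn : 1 ≤ n) {k : ℝ} {h : EE n → ℝ} (hh : GpHom n k h) (ρ : ℝ → ℝ) :
    ∫ x : EE n, ρ ‖x‖ * h x
      = gpS n h * ∫ r in Ioi (0 : ℝ), r ^ (n - 1) * (ρ r * r ^ k) := by
  have : Nonempty (Fin n) := ⟨⟨0, hn⟩⟩
  have hdim : Module.finrank ℝ (EE n) = n := by simp
  calc ∫ x : EE n, ρ ‖x‖ * h x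
      = ∫ x : ({(0)}ᶜ : Set (EE n)), ρ ‖x.1‖ * h x.1 ∂((volume : Measure (EE n)).comap (↑)) := by
        rw [integral_subtype_comap (measurableSet_singleton _).compl fun x ↦ ρ ‖x‖ * h x,
          restrict_compl_singleton]
    _ = ∫ y : sphere (0 : EE n) 1 × Ioi (0 : ℝ), h y.1 * (ρ y.2 * (y.2 : ℝ) ^ k)
          ∂((volume : Measure (EE n)).toSphere.prod (.volumeIoiPow (Module.finrank ℝ (EE n) - 1))) := by
        rw [← (volume : Measure (EE n)).measurePreserving_homeomorphUnitSphereProd.integral_comp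
          (Homeomorph.measurableEmbedding _)]
        refine integral_congr_ae (Eventually.of_forall fun x => ?_)
        have hx : (x : EE n) ≠ 0 := x.2
        have hx' : 0 < ‖(x : EE n)‖ := norm_pos_iff.2 hx
        have h1 : h x.1 = ‖(x : EE n)‖ ^ k * h (‖(x : EE n)‖⁻¹ • (x : EE n)) := by
          have := hh ‖(x : EE n)‖ hx' (‖(x : EE n)‖⁻¹ • (x : EE n))
            (smul_ne_zero (inv_ne_zero hx'.ne') hx)
          rw [smul_smul, mul_inv_cancel₀ hx'.ne', one_smul] at this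
          exact this
        simp only [homeomorphUnitSphereProd_apply_fst_coe, homeomorphUnitSphereProd_apply_snd_coe]
        rw [h1]; ring
    _ = gpS n h * ∫ r : Ioi (0 : ℝ), ρ r * (r : ℝ) ^ k ∂(.volumeIoiPow (Module.finrank ℝ (EE n) - 1)) := by
        rw [gpS]
        exact integral_prod_mul (fun ω : sphere (0 : EE n) 1 => h ω)
          (fun r : Ioi (0 : ℝ) => ρ r * (r : ℝ) ^ k)
    _ = _ := by
        congr 1
        simp only [Measure.volumeIoiPow, ENNReal.ofReal, hdim]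
        rw [integral_withDensity_eq_integral_smul,
          integral_subtype_comap measurableSet_Ioi
            fun a ↦ Real.toNNReal (a ^ (n - 1)) • (ρ a * a ^ k),
          setIntegral_congr_fun measurableSet_Ioi fun x hx ↦ ?_]
        · rw [NNReal.smul_def, Real.coe_toNNReal _ (pow_nonneg hx.out.le _), smul_eq_mul]
        · exact (measurable_subtype_coe.pow_const _).real_toNNReal

theorem gpI_eq {a : ℝ} (ha : -1 < a) :
    gpI a = (1 / 2 : ℝ) ^ (-(a + 1) / 2) * (1 / 2) * Real.Gamma ((a + 1) / 2) :=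
  integral_rpow_mul_exp_neg_mul_rpow (by norm_num) ha (by norm_num)

theorem gpI_pos {a : ℝ} (ha : -1 < a) : 0 < gpI a := by
  rw [gpI_eq ha]
  have : 0 < Real.Gamma ((a + 1) / 2) := Real.Gamma_pos_of_pos (by linarith)
  positivity

theorem gpI_add_two {a : ℝ} (ha : -1 < a) : gpI (a + 2) = (a + 1) * gpI a := by
  rw [gpI_eq ha, gpI_eq (by linarith)]
  have h1 : (a + 2 + 1) / 2 = (a + 1) / 2 + 1 := by ring
  have h2 : -(a + 2 + 1) / 2 = -(a + 1) / 2 - 1 := by ring
  rw [h1, h2, Real.Gamma_add_one (by linarith), Real.rpow_sub (by norm_num), Real.rpow_one]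
  ring

theorem GpHom.norm_sq_mul {n : ℕ} {k : ℝ} {h : EE n → ℝ} (hh : GpHom n k h) :
    GpHom n (k + 2) (fun x => ‖x‖ ^ 2 * h x) := by
  intro t ht x hx
  show ‖t • x‖ ^ 2 * h (t • x) = t ^ (k + 2) * (‖x‖ ^ 2 * h x)
  rw [hh t ht x hx, norm_smul, Real.norm_of_nonneg ht.le, Real.rpow_add ht, Real.rpow_two]
  ring

theorem gpS_norm_sq_mul {n : ℕ} (h : EE n → ℝ) : gpS n (fun x => ‖x‖ ^ 2 * h x) = gpS n h := by
  unfold gpS
  refine integral_congr_ae (Eventually.of_forall fun ω => ?_)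
  have : ‖(ω : EE n)‖ = 1 := by simp
  simp [this]

/-- Gaussian integral of a homogeneous function. -/
theorem gp_gauss_polar {n : ℕ} (hn : 1 ≤ n) {k : ℝ} {h : EE n → ℝ} (hh : GpHom n k h) :
    ∫ x, h x ∂gam n = gpS n h * ((2 * Real.pi) ^ (-(n : ℝ) / 2) * gpI ((n : ℝ) - 1 + k)) := by
  rw [Claimed.Agent.R260.gk_integral_gam]
  have h1 := gp_polar hn hh (fun r => (2 * Real.pi) ^ (-(n : ℝ) / 2) * Real.exp (-r ^ 2 / 2))
  have h2 : ∀ x : EE n, h x * ((2 * Real.pi) ^ (-(n : ℝ) / 2) * Real.exp (-‖x‖ ^ 2 / 2))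
      = (2 * Real.pi) ^ (-(n : ℝ) / 2) * Real.exp (-‖x‖ ^ 2 / 2) * h x := fun x => by ring
  simp_rw [h2]
  rw [h1, gpI]
  have h5 : ∫ r in Ioi (0 : ℝ), r ^ (n - 1) *
        ((2 * Real.pi) ^ (-(n : ℝ) / 2) * Real.exp (-r ^ 2 / 2) * r ^ k)
      = ∫ r in Ioi (0 : ℝ), (2 * Real.pi) ^ (-(n : ℝ) / 2) *
        (r ^ ((n : ℝ) - 1 + k) * Real.exp (-(1 / 2) * r ^ (2 : ℝ))) := by
    refine setIntegral_congr_fun measurableSet_Ioi fun r hr => ?_
    have hr' : (0 : ℝ) < r := hr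
    have h3 : r ^ ((n : ℝ) - 1 + k) = r ^ (n - 1) * r ^ k := by
      rw [Real.rpow_add hr', ← Real.rpow_natCast, Nat.cast_sub hn, Nat.cast_one]
    have h4 : -(1 / 2) * r ^ (2 : ℝ) = -r ^ 2 / 2 := by
      rw [Real.rpow_two]; ring
    simp only [h3, h4]
    ring
  rw [h5, integral_const_mul]

/-- **moment identity**: `E[|X|² h] = (n + k) E[h]` for `h` homogeneous of degree `k > -n`. -/
theorem gp_moment {n : ℕ} (hn : 1 ≤ n) {k : ℝ} (hk : -(n : ℝ) < k) {h : EE n → ℝ}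
    (hh : GpHom n k h) :
    ∫ x, ‖x‖ ^ 2 * h x ∂gam n = ((n : ℝ) + k) * ∫ x, h x ∂gam n := by
  rw [gp_gauss_polar hn hh, gp_gauss_polar hn hh.norm_sq_mul, gpS_norm_sq_mul]
  have h1 : (n : ℝ) - 1 + (k + 2) = ((n : ℝ) - 1 + k) + 2 := by ring
  rw [h1, gpI_add_two (by linarith)]
  ring

/-- integral over the unit ball of a homogeneous function. -/
theorem gp_ball_polar {n : ℕ} (hn : 1 ≤ n) {k : ℝ} (hk : -(n : ℝ) < k) {h : EE n → ℝ}
    (hh : GpHom n k h) :
    ∫ x in ball (0 : EE n) 1, h x = gpS n h / ((n : ℝ) + k) := by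
  have h1 := gp_polar hn hh (fun r => (Iio (1 : ℝ)).indicator (fun _ => (1 : ℝ)) r)
  have h2 : ∫ x in ball (0 : EE n) 1, h x
      = ∫ x : EE n, (Iio (1 : ℝ)).indicator (fun _ => (1 : ℝ)) ‖x‖ * h x := by
    rw [← integral_indicator measurableSet_ball]
    refine integral_congr_ae (Eventually.of_forall fun x => ?_)
    by_cases hx : ‖x‖ < 1
    · simp [hx]
    · simp [hx]
  rw [h2, h1, div_eq_mul_inv]
  congr 1
  have h3 : ∫ r in Ioi (0 : ℝ), r ^ (n - 1) * ((Iio (1 : ℝ)).indicator (fun _ => (1 : ℝ)) r * r ^ k)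
      = ∫ r in Ioc (0 : ℝ) 1, r ^ ((n : ℝ) - 1 + k) := by
    rw [← integral_indicator measurableSet_Ioi, ← integral_indicator measurableSet_Ioc]
    have hae : ∀ᵐ r : ℝ, r ≠ 1 := by
      simp [ae_iff, measure_singleton]
    refine integral_congr_ae ?_
    filter_upwards [hae] with r hr1
    by_cases hr : 0 < r
    · have h3 : r ^ ((n : ℝ) - 1 + k) = r ^ (n - 1) * r ^ k := by
        rw [Real.rpow_add hr, ← Real.rpow_natCast, Nat.cast_sub hn, Nat.cast_one]
      by_cases hr2 : r < 1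
      · simp [hr, hr2, hr2.le, h3]
      · have : ¬ r ≤ 1 := fun h => hr2 (lt_of_le_of_ne h hr1)
        simp [hr, hr2, this]
    · simp [hr]
  rw [h3, ← intervalIntegral.integral_of_le zero_le_one, integral_rpow (Or.inl (by linarith))]
  have : (n : ℝ) - 1 + k + 1 = (n : ℝ) + k := by ring
  rw [this, Real.one_rpow, Real.zero_rpow (by linarith)]
  simp

/-- `|x|^k` is Gaussian integrable for `k > -n`. -/
theorem gp_integrable_norm_rpow {n : ℕ} (hn : 1 ≤ n) {k : ℝ} (hk : -(n : ℝ) < k) :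
    Integrable (fun x : EE n => ‖x‖ ^ k) (gam n) := by
  have : Nonempty (Fin n) := ⟨⟨0, hn⟩⟩
  rw [Claimed.Agent.R260.gk_integrable_gam_iff]
  have h1 := (integrable_fun_norm_addHaar (E := EE n) (volume : Measure (EE n))
    (f := fun r : ℝ => ((2 * Real.pi) ^ (-(n : ℝ) / 2) * Real.exp (-r ^ 2 / 2)) • r ^ k)).2 ?_
  · exact h1
  · have h2 := (integrableOn_rpow_mul_exp_neg_mul_rpow (p := 2) (s := (n : ℝ) - 1 + k)
      (b := 1 / 2) (by linarith) (by norm_num) (by norm_num)).const_mul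
        ((2 * Real.pi) ^ (-(n : ℝ) / 2))
    refine IntegrableOn.congr_fun h2 (fun r hr => ?_) measurableSet_Ioi
    have hr' : (0 : ℝ) < r := hr
    have h3 : r ^ ((n : ℝ) - 1 + k) = r ^ (n - 1) * r ^ k := by
      rw [Real.rpow_add hr', ← Real.rpow_natCast, Nat.cast_sub hn, Nat.cast_one]
    have h4 : -(1 / 2) * r ^ (2 : ℝ) = -r ^ 2 / 2 := by
      rw [Real.rpow_two]; ring
    simp only [h3, h4, smul_eq_mul, finrank_euclideanSpace, Fintype.card_fin]
    ring

theorem GpHom.abs_le {n : ℕ} {k : ℝ} {h : EE n → ℝ} (hh : GpHom n k h) {C : ℝ}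
    (hC : ∀ x : EE n, ‖x‖ = 1 → |h x| ≤ C) (x : EE n) (hx : x ≠ 0) : |h x| ≤ C * ‖x‖ ^ k := by
  have hx' : 0 < ‖x‖ := norm_pos_iff.2 hx
  have h1 := hh ‖x‖ hx' (‖x‖⁻¹ • x) (smul_ne_zero (inv_ne_zero hx'.ne') hx)
  rw [smul_smul, mul_inv_cancel₀ hx'.ne', one_smul] at h1
  have h2 : ‖‖x‖⁻¹ • x‖ = 1 := by
    rw [norm_smul, norm_inv, norm_norm, inv_mul_cancel₀ hx'.ne']
  rw [h1, abs_mul, abs_of_nonneg (Real.rpow_nonneg hx'.le k), mul_comm]
  exact mul_le_mul_of_nonneg_right (hC _ h2) (Real.rpow_nonneg hx'.le k)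

/-- homogeneous functions of degree `> -n`, bounded on the sphere, are Gaussian integrable. -/
theorem gp_integrable_hom {n : ℕ} (hn : 1 ≤ n) {k : ℝ} (hk : -(n : ℝ) < k) {h : EE n → ℝ}
    (hh : GpHom n k h) (hm : AEStronglyMeasurable h (gam n)) {C : ℝ}
    (hC : ∀ x : EE n, ‖x‖ = 1 → |h x| ≤ C) : Integrable h (gam n) := by
  have : Nonempty (Fin n) := ⟨⟨0, hn⟩⟩
  refine ((gp_integrable_norm_rpow hn hk).const_mul C).mono' hm ?_
  have h0 : ∀ᵐ x ∂gam n, x ≠ 0 := by
    refine Claimed.Agent.R260.gk_gam_ac_volume.ae_le ?_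
    have : (volume : Measure (EE n)) {x | ¬ x ≠ 0} = 0 := by
      have h : {x : EE n | ¬ x ≠ 0} = {0} := by ext x; simp
      rw [h]; exact measure_singleton _
    exact this
  filter_upwards [h0] with x hx
  exact hh.abs_le hC x hx

end Claimed.Agent.R323
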