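/-
Row 323, block GAP (R323/Gap, prefix gp_).  Architect: helper137.
First absolute moments of linear forms under the standard Gaussian.
-/
import Claimed.Agent.R323.Gap.Polar

set_option autoImplicit false

namespace Claimed.Agent.R323

open MeasureTheory ProbabilityTheory Filter Topology Set Metric
open Claimed.Agent.R260 (EE gam)

theorem gpI_one : gpI 1 = 1 := by
  rw [gpI_eq (by norm_num)]
  norm_num

/-- `E|Z| = √(2/π)` for a standard real Gaussian. -/
theorem gp_abs_std : ∫ y, |y| ∂(gaussianReal 0 1) = Real.sqrt (2 / Real.pi) := by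
  rw [integral_gaussianReal_eq_integral_smul one_ne_zero]
  have h1 : ∀ x : ℝ, gaussianPDFReal 0 1 x • |x|
      = (fun t : ℝ => (Real.sqrt (2 * Real.pi))⁻¹ * (t ^ (1 : ℝ) * Real.exp (-(1 / 2) * t ^ (2 : ℝ)))) |x| := by
    intro x
    simp only [gaussianPDFReal, smul_eq_mul, Real.rpow_one, Real.rpow_two, sq_abs]
    norm_num
    ring_nf
  rw [integral_congr_ae (Eventually.of_forall h1),
    integral_comp_abs (f := fun t : ℝ => (Real.sqrt (2 * Real.pi))⁻¹ *
      (t ^ (1 : ℝ) * Real.exp (-(1 / 2) * t ^ (2 : ℝ)))), integral_const_mul]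
  have h2 : ∫ t in Ioi (0 : ℝ), t ^ (1 : ℝ) * Real.exp (-(1 / 2) * t ^ (2 : ℝ)) = 1 := gpI_one
  rw [h2, mul_one]
  have hpi := Real.pi_pos
  have h3 : Real.sqrt (2 / Real.pi) * Real.sqrt (2 * Real.pi) = 2 := by
    rw [← Real.sqrt_mul (by positivity)]
    have : 2 / Real.pi * (2 * Real.pi) = 2 ^ 2 := by field_simp
    rw [this, Real.sqrt_sq (by norm_num)]
  have h4 : 0 < Real.sqrt (2 * Real.pi) := Real.sqrt_pos.2 (by positivity)
  field_simp
  linarith

/-- `E|L Z| = √(2/π) ‖L‖`. -/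
theorem gp_abs_dual {n : ℕ} (L : StrongDual ℝ (EE n)) :
    ∫ z, |L z| ∂gam n = Real.sqrt (2 / Real.pi) * ‖L‖ := by
  have h1 : (gam n).map L = gaussianReal 0 (.mk (‖L‖ ^ 2) (sq_nonneg _) * 1) := by
    rw [IsGaussian.map_eq_gaussianReal L, integral_strongDual_stdGaussian,
      variance_dual_stdGaussian]
    congr 1
    ext
    simp
  have h2 : ∫ z, |L z| ∂gam n = ∫ y, |y| ∂((gam n).map L) := by
    rw [integral_map L.continuous.aemeasurable (by fun_prop)]
  have h3 := gaussianReal_map_const_mul (μ := 0) (v := 1) ‖L‖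
  rw [mul_zero] at h3
  rw [h2, h1, ← h3, integral_map (by fun_prop) (by fun_prop)]
  simp_rw [abs_mul, abs_norm]
  rw [integral_const_mul, gp_abs_std, mul_comm]

theorem gp_hom_abs_dual {n : ℕ} (L : StrongDual ℝ (EE n)) : GpHom n 1 (fun z => |L z|) := by
  intro t ht x _
  simp [abs_mul, abs_of_pos ht]

/-- `E[|Z|² |L Z|] = (n+1) √(2/π) ‖L‖`. -/
theorem gp_sq_abs_dual {n : ℕ} (hn : 1 ≤ n) (L : StrongDual ℝ (EE n)) :
    ∫ z, ‖z‖ ^ 2 * |L z| ∂gam n = ((n : ℝ) + 1) * (Real.sqrt (2 / Real.pi) * ‖L‖) := by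
  rw [gp_moment hn (by have : (0 : ℝ) ≤ n := Nat.cast_nonneg n; linarith) (gp_hom_abs_dual L),
    gp_abs_dual]

/-- `E|Z|² = n`. -/
theorem gp_sq_norm {n : ℕ} (hn : 1 ≤ n) : ∫ z : EE n, ‖z‖ ^ 2 ∂gam n = n := by
  have h : GpHom n 0 (fun _ => (1 : ℝ)) := by
    intro t ht x _; simp
  have := gp_moment hn (by have : (1 : ℝ) ≤ n := by exact_mod_cast hn
                           linarith) h
  simpa using this

end Claimed.Agent.R323
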