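/-
Row 323, block GAP (R323/Gap, prefix gp_).  Architect: helper137.
Step (a): the exact value of `E[K (f(X) - f(Z))²]`, `K = |X+Z|²/2`.
-/
import Claimed.Agent.R323.Gap.Mom

set_option autoImplicit false

namespace Claimed.Agent.R323

open MeasureTheory ProbabilityTheory Filter Topology Set Metric
open Claimed.Agent.R260 (EE gam PG BM)

theorem gp_PG_norm_sq {n : ℕ} : PG (fun x : EE n => ‖x‖ ^ 2) := by
  refine ⟨by fun_prop, 1, 2, fun x => ?_⟩
  rw [abs_of_nonneg (by positivity), one_mul]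
  exact pow_le_pow_left₀ (norm_nonneg x) (by linarith) 2

theorem gp_PG_const {n : ℕ} (c : ℝ) : PG (fun _ : EE n => c) :=
  BM.toPG ⟨measurable_const, |c|, fun _ => le_rfl⟩

theorem gp_integrable_prod {n : ℕ} {a b : EE n → ℝ} (ha : PG a) (hb : PG b) :
    Integrable (fun p : EE n × EE n => a p.1 * b p.2) ((gam n).prod (gam n)) :=
  ha.integrable.mul_prod hb.integrable

/-- the bilinear computation. -/
theorem gp_bil {n : ℕ} {u v f : EE n → ℝ} (hu : PG u) (hv : PG v) (hf : PG f) :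
    Integrable (fun p : EE n × EE n => u p.1 * v p.2 * (f p.1 - f p.2) ^ 2)
        ((gam n).prod (gam n)) ∧
    ∫ p : EE n × EE n, u p.1 * v p.2 * (f p.1 - f p.2) ^ 2 ∂((gam n).prod (gam n))
      = (∫ x, u x * f x ^ 2 ∂gam n) * (∫ x, v x ∂gam n)
        - 2 * ((∫ x, u x * f x ∂gam n) * ∫ x, v x * f x ∂gam n)
        + (∫ x, u x ∂gam n) * ∫ x, v x * f x ^ 2 ∂gam n := by
  have hf2 : PG (fun x => f x ^ 2) := by
    simpa [sq] using hf.mul hf
  have i1 := gp_integrable_prod (hu.mul hf2) hv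
  have i2 := gp_integrable_prod (hu.mul hf) (hv.mul hf)
  have i3 := gp_integrable_prod hu (hv.mul hf2)
  have e : (fun p : EE n × EE n => u p.1 * v p.2 * (f p.1 - f p.2) ^ 2)
      = fun p => (u p.1 * f p.1 ^ 2) * v p.2 - 2 * ((u p.1 * f p.1) * (v p.2 * f p.2))
          + u p.1 * (v p.2 * f p.2 ^ 2) := by
    funext p; ring
  rw [e]
  refine ⟨(i1.sub (i2.const_mul 2)).add i3, ?_⟩
  have i12 : Integrable (fun p : EE n × EE n =>
      (u p.1 * f p.1 ^ 2) * v p.2 - 2 * ((u p.1 * f p.1) * (v p.2 * f p.2)))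
      ((gam n).prod (gam n)) := i1.sub (i2.const_mul 2)
  rw [integral_add i12 i3, integral_sub i1 (i2.const_mul 2),
    integral_const_mul, integral_prod_mul (fun x => u x * f x ^ 2) v,
    integral_prod_mul (fun x => u x * f x) (fun x => v x * f x),
    integral_prod_mul u (fun x => v x * f x ^ 2)]

/-- **Step (a)**. -/
theorem gp_alg {n : ℕ} (hn : 1 ≤ n) {f : EE n → ℝ} (hf : BM f) (hhom : GpHom n 0 f) :
    Integrable (fun p : EE n × EE n => ‖p.1 + p.2‖ ^ 2 / 2 * (f p.1 - f p.2) ^ 2)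
        ((gam n).prod (gam n)) ∧
    ∫ p : EE n × EE n, ‖p.1 + p.2‖ ^ 2 / 2 * (f p.1 - f p.2) ^ 2 ∂((gam n).prod (gam n))
      = 2 * n * (∫ x, f x ^ 2 ∂gam n) - 2 * n * (∫ x, f x ∂gam n) ^ 2
        - 2 * ∑ i, (∫ x, x i * f x ∂gam n) ^ 2 := by
  have hfP : PG f := hf.toPG
  have hn' : -(n : ℝ) < 0 := by
    have : (1 : ℝ) ≤ n := by exact_mod_cast hn
    linarith
  have hhom2 : GpHom n 0 (fun x => f x ^ 2) := by
    intro t ht x hx
    simp only [hhom t ht x hx, Real.rpow_zero, one_mul]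
  have m1 : ∫ x, ‖x‖ ^ 2 * f x ∂gam n = n * ∫ x, f x ∂gam n := by
    simpa using gp_moment hn hn' hhom
  have m2 : ∫ x, ‖x‖ ^ 2 * f x ^ 2 ∂gam n = n * ∫ x, f x ^ 2 ∂gam n := by
    simpa using gp_moment hn hn' hhom2
  have m0 : ∫ x : EE n, ‖x‖ ^ 2 ∂gam n = n := gp_sq_norm hn
  have mc : ∀ i : Fin n, ∫ x : EE n, x i ∂gam n = 0 := by
    intro i
    exact integral_strongDual_stdGaussian (EuclideanSpace.proj i)
  obtain ⟨I1, E1⟩ := gp_bil gp_PG_norm_sq (gp_PG_const 1) hfP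
  obtain ⟨I2, E2⟩ := gp_bil (gp_PG_const 1) gp_PG_norm_sq hfP
  have H3 := fun i : Fin n => gp_bil (Claimed.Agent.R260.gk_PG_coord i)
    (Claimed.Agent.R260.gk_PG_coord i) hfP
  have e : (fun p : EE n × EE n => ‖p.1 + p.2‖ ^ 2 / 2 * (f p.1 - f p.2) ^ 2)
      = fun p => (1 / 2 : ℝ) * (‖p.1‖ ^ 2 * 1 * (f p.1 - f p.2) ^ 2)
          + (1 / 2 : ℝ) * (1 * ‖p.2‖ ^ 2 * (f p.1 - f p.2) ^ 2)
          + ∑ i, p.1 i * p.2 i * (f p.1 - f p.2) ^ 2 := by
    funext p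
    have h1 : ‖p.1 + p.2‖ ^ 2 = ‖p.1‖ ^ 2 + 2 * ∑ i, p.1 i * p.2 i + ‖p.2‖ ^ 2 := by
      rw [norm_add_sq_real]
      congr 2
      simp [PiLp.inner_apply, mul_comm]
    rw [h1, ← Finset.sum_mul]
    ring
  have I3 : Integrable (fun p : EE n × EE n => ∑ i, p.1 i * p.2 i * (f p.1 - f p.2) ^ 2)
      ((gam n).prod (gam n)) := integrable_finsetSum _ fun i _ => (H3 i).1
  have I12 : Integrable (fun p : EE n × EE n =>
      (1 / 2 : ℝ) * (‖p.1‖ ^ 2 * 1 * (f p.1 - f p.2) ^ 2)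
          + (1 / 2 : ℝ) * (1 * ‖p.2‖ ^ 2 * (f p.1 - f p.2) ^ 2)) ((gam n).prod (gam n)) :=
    (I1.const_mul _).add (I2.const_mul _)
  rw [e]
  refine ⟨I12.add I3, ?_⟩
  rw [integral_add I12 I3, integral_add (I1.const_mul _) (I2.const_mul _), integral_const_mul,
    integral_const_mul, E1, E2, integral_finsetSum _ fun i _ => (H3 i).1]
  simp_rw [fun i => (H3 i).2, mc]
  simp only [one_mul, integral_const, probReal_univ, smul_eq_mul, mul_one, m0, m1, m2, zero_mul,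
    mul_zero, add_zero, zero_sub]
  rw [Finset.sum_neg_distrib, ← Finset.mul_sum]
  simp_rw [← sq]
  ring

end Claimed.Agent.R323
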