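import Claimed.Agent.R323.Gap.Lip
import Claimed.Agent.Lib.Gmt.Defs

/-!
# Row 323, GAP: the EXITS on the unit ball.   helper129 (on top of helper137's Gaussian core `gp_main`, `gp_main_lip`).

* `GpFun n f`   : `0`-homogeneous, `|f| ≤ 1`, Lipschitz on the unit sphere.      `gp_gauss` : the Gaussian gap inequality for `GpFun`.
* `gp_gauss_ball` : Gaussian integral of a homogeneous function = constant × integral over `ball 0 1`;  `gp_gauss_hom0`, `gp_gauss_homN`: degrees `0`, `-1`.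
* `gp_ball`     : the gap inequality on `ball 0 1` (Lebesgue measure), no constraint.
* `gp_ball0`    : constrained form (`∫_B f = 0`, `∫_B x_i f = 0`): `∫_B f² ≤ n ω_n / (2 (n-1) ω_{n-1}) (1 - 2/(π n)) ∫_B |x| ‖Df x‖`, `ω_k = gmtOm k`.
  (`n ω_n = |S^{n-1}|`, `(n-1) ω_{n-1} = |S^{n-2}|`; for the half space `f = sign ⟪x,e⟫` one has equality WITHOUT the factor `1 - 2/(π n)`.)
* `gp_ball_c1`, `gp_ball0_c1` : the same for `f` of class `C¹` off the origin.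
-/

set_option autoImplicit false
open scoped ENNReal NNReal RealInnerProductSpace Topology
open MeasureTheory Metric Set Filter

namespace Claimed.Agent.R323

open Claimed.Agent.Gmt (gmtOm)
open Claimed.Agent.R260 (EE gam)

variable {n : ℕ} {f : EE n → ℝ}

/-- the class of functions of the gap inequality: `0`-homogeneous, bounded by `1`, Lipschitz on the unit sphere. -/
structure GpFun (n : ℕ) (f : EE n → ℝ) : Prop where
  hom : ∀ t : ℝ, 0 < t → ∀ x, f (t • x) = f x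
  bdd : ∀ x, |f x| ≤ 1
  lip : ∃ L : ℝ≥0, LipschitzOnWith L f (sphere 0 1)

/-- the normalising constant `(2π)^{-n/2}` of the Gaussian density. -/
noncomputable def gpC (n : ℕ) : ℝ := (2 * Real.pi) ^ (-(n : ℝ) / 2)

/-- the constant in front of `∫_B x_i f`. -/
noncomputable def gpKap (n : ℕ) : ℝ := (n + 1) * gpC n * gpI n

/-- **the gap inequality, Gaussian form**, for the class `GpFun`. -/
theorem gp_gauss (hn : 2 ≤ n) (hf : GpFun n f) :
    n * ((∫ x, f x ^ 2 ∂(gam n)) - (∫ x, f x ∂(gam n)) ^ 2) - ∑ i, (∫ x, x i * f x ∂(gam n)) ^ 2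
      ≤ Real.sqrt (2 / Real.pi) * (Real.pi * n / 2 - 1) * ∫ x, ‖fderiv ℝ f x‖ ∂(gam n) := by
  obtain ⟨L, hL⟩ := hf.lip
  exact gp_main_lip hn hf.hom hL hf.bdd

theorem gp_om_pos (k : ℕ) : 0 < gmtOm k := by
  unfold gmtOm
  exact ENNReal.toReal_pos (measure_ball_pos _ _ one_pos).ne' measure_ball_lt_top.ne

/-- **Gaussian integral = constant × integral over the unit ball**, for `H` homogeneous of degree `k > -n`. -/
theorem gp_gauss_ball (hn : 1 ≤ n) {k : ℝ} (hk : -(n : ℝ) < k) {H : EE n → ℝ} (hH : GpHom n k H) :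
    ∫ x, H x ∂(gam n) = (n + k) * gpC n * gpI (n - 1 + k) * ∫ x in ball (0 : EE n) 1, H x := by
  rw [gp_gauss_polar hn hH, gp_ball_polar hn hk hH, gpC]
  have : (n : ℝ) + k ≠ 0 := by linarith
  field_simp

/-- normalisation (total mass one). -/
theorem gp_norm (hn : 1 ≤ n) : n * gpC n * gpI (n - 1) * gmtOm n = 1 := by
  have hn' : (1 : ℝ) ≤ n := by exact_mod_cast hn
  have h := gp_gauss_ball hn (k := 0) (by linarith) (H := fun _ => (1 : ℝ)) (fun t ht x _ => by simp)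
  simp only [integral_const, probReal_univ, smul_eq_mul, mul_one, add_zero, MeasurableSet.univ,
    measureReal_restrict_apply, univ_inter] at h
  exact h.symm

/-- degree `0`: the Gaussian mean is the mean over the unit ball. -/
theorem gp_gauss_hom0 (hn : 1 ≤ n) {F : EE n → ℝ} (hF : ∀ t : ℝ, 0 < t → ∀ x, F (t • x) = F x) :
    ∫ x, F x ∂(gam n) = (gmtOm n)⁻¹ * ∫ x in ball (0 : EE n) 1, F x := by
  have hn' : (1 : ℝ) ≤ n := by exact_mod_cast hn
  have h := gp_gauss_ball hn (k := 0) (by linarith) (H := F) (fun t ht x _ => by rw [hF t ht x, Real.rpow_zero, one_mul])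
  have h2 := gp_norm hn
  have h3 := gp_om_pos n
  rw [h, add_zero, add_zero]
  have : n * gpC n * gpI (n - 1) = (gmtOm n)⁻¹ := by
    field_simp
    linarith
  rw [this]

/-- degree `-1`, weighted form: `E[H] = n c_n I(n-2) ∫_{B_1} |x| H`. -/
theorem gp_gauss_homN (hn : 2 ≤ n) {H : EE n → ℝ} (hH : GpHom n (-1) H) :
    ∫ x, H x ∂(gam n) = n * gpC n * gpI (n - 2) * ∫ x in ball (0 : EE n) 1, ‖x‖ * H x := by
  have hn' : (2 : ℝ) ≤ n := by exact_mod_cast hn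
  have h0 : GpHom n 0 (fun x => ‖x‖ * H x) := by
    intro t ht x hx
    show ‖t • x‖ * H (t • x) = t ^ (0 : ℝ) * (‖x‖ * H x)
    rw [hH t ht x hx, norm_smul, Real.norm_of_nonneg ht.le, Real.rpow_neg_one, Real.rpow_zero]
    field_simp
  have hS : gpS n (fun x => ‖x‖ * H x) = gpS n H := by
    unfold gpS
    refine integral_congr_ae (Eventually.of_forall fun ω => ?_)
    have : ‖(ω : EE n)‖ = 1 := by simp
    simp [this]
  rw [gp_gauss_polar (by omega) hH, gp_ball_polar (by omega) (by linarith) h0, hS, gpC]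
  have e : (n : ℝ) - 1 + -1 = n - 2 := by ring
  rw [e, add_zero]
  have : (n : ℝ) ≠ 0 := by linarith
  field_simp

/-- the constant of `gp_gauss_homN` in terms of ball volumes (normalisation in the dimensions `n` and `n - 1`; no Gamma function). -/
theorem gp_const (hn : 2 ≤ n) :
    Real.sqrt (2 / Real.pi) * (n * gpC n * gpI (n - 2)) = n / (Real.pi * ((n : ℝ) - 1) * gmtOm (n - 1)) := by
  have hn' : (2 : ℝ) ≤ n := by exact_mod_cast hn
  have h1 := gp_norm (n := n - 1) (by omega)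
  have hc : ((n - 1 : ℕ) : ℝ) = (n : ℝ) - 1 := by
    rw [Nat.cast_sub (by omega)]; simp
  rw [hc] at h1
  have e : (n : ℝ) - 1 - 1 = n - 2 := by ring
  rw [e] at h1
  have hω := gp_om_pos (n - 1)
  have hpi := Real.pi_pos
  have hC : gpC n = gpC (n - 1) * (Real.sqrt (2 * Real.pi))⁻¹ := by
    unfold gpC
    rw [hc, Real.sqrt_eq_rpow, ← Real.rpow_neg (by positivity), ← Real.rpow_add (by positivity)]
    congr 1
    ring
  have hs : Real.sqrt (2 / Real.pi) * (Real.sqrt (2 * Real.pi))⁻¹ = 1 / Real.pi := by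
    rw [← Real.sqrt_inv, ← Real.sqrt_mul (by positivity)]
    have : 2 / Real.pi * (2 * Real.pi)⁻¹ = (1 / Real.pi) ^ 2 := by
      field_simp
    rw [this, Real.sqrt_sq (by positivity)]
  have h2 : (n : ℝ) - 1 ≠ 0 := by linarith
  have h3 : gpC (n - 1) * gpI (n - 2) = 1 / (((n : ℝ) - 1) * gmtOm (n - 1)) := by
    field_simp
    linarith
  calc Real.sqrt (2 / Real.pi) * (n * gpC n * gpI (n - 2))
      = n * (Real.sqrt (2 / Real.pi) * (Real.sqrt (2 * Real.pi))⁻¹) * (gpC (n - 1) * gpI (n - 2)) := by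
        rw [hC]; ring
    _ = _ := by
        rw [hs, h3]
        field_simp

/-- conversion of the Gaussian inequality into the inequality on the unit ball: only the homogeneity is used. -/
theorem gp_to_ball (hn : 2 ≤ n) (hom : ∀ t : ℝ, 0 < t → ∀ x, f (t • x) = f x)
    (h : n * ((∫ x, f x ^ 2 ∂(gam n)) - (∫ x, f x ∂(gam n)) ^ 2) - ∑ i, (∫ x, x i * f x ∂(gam n)) ^ 2
      ≤ Real.sqrt (2 / Real.pi) * (Real.pi * n / 2 - 1) * ∫ x, ‖fderiv ℝ f x‖ ∂(gam n)) :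
    n * ((gmtOm n)⁻¹ * (∫ x in ball (0 : EE n) 1, f x ^ 2) - ((gmtOm n)⁻¹ * ∫ x in ball (0 : EE n) 1, f x) ^ 2)
        - gpKap n ^ 2 * ∑ i, (∫ x in ball (0 : EE n) 1, x i * f x) ^ 2
      ≤ ((n : ℝ) / 2 - 1 / Real.pi) * (n / (((n : ℝ) - 1) * gmtOm (n - 1))) * ∫ x in ball (0 : EE n) 1, ‖x‖ * ‖fderiv ℝ f x‖ := by
  have hn1 : 1 ≤ n := by omega
  have hn' : (2 : ℝ) ≤ n := by exact_mod_cast hn
  have e1 : ∫ x, f x ^ 2 ∂(gam n) = (gmtOm n)⁻¹ * ∫ x in ball (0 : EE n) 1, f x ^ 2 :=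
    gp_gauss_hom0 hn1 (F := fun x => f x ^ 2) fun t ht x => by simp only [hom t ht x]
  have e2 : ∫ x, f x ∂(gam n) = (gmtOm n)⁻¹ * ∫ x in ball (0 : EE n) 1, f x := gp_gauss_hom0 hn1 hom
  have e3 : ∀ i, ∫ x, x i * f x ∂(gam n) = gpKap n * ∫ x in ball (0 : EE n) 1, x i * f x := by
    intro i
    have := gp_gauss_ball hn1 (k := 1) (by linarith) (H := fun x : EE n => x i * f x) fun t ht x _ => by
      simp only [hom t ht x, Real.rpow_one, PiLp.smul_apply, smul_eq_mul]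
      ring
    rw [this, gpKap]
    congr 3
    ring
  have e4 : ∫ x, ‖fderiv ℝ f x‖ ∂(gam n) = n * gpC n * gpI (n - 2) * ∫ x in ball (0 : EE n) 1, ‖x‖ * ‖fderiv ℝ f x‖ :=
    gp_gauss_homN hn (gp_hom_norm_fderiv hom)
  have e5 := gp_const hn
  rw [e1, e2, e4] at h
  simp only [e3, mul_pow (gpKap n), ← Finset.mul_sum] at h
  have hpi := Real.pi_pos
  have hω := gp_om_pos (n - 1)
  have e6 : Real.sqrt (2 / Real.pi) * (Real.pi * n / 2 - 1) * (n * gpC n * gpI (n - 2) * ∫ x in ball (0 : EE n) 1, ‖x‖ * ‖fderiv ℝ f x‖)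
      = ((n : ℝ) / 2 - 1 / Real.pi) * (n / (((n : ℝ) - 1) * gmtOm (n - 1))) * ∫ x in ball (0 : EE n) 1, ‖x‖ * ‖fderiv ℝ f x‖ := by
    have : Real.sqrt (2 / Real.pi) * (Real.pi * n / 2 - 1) * (n * gpC n * gpI (n - 2) * ∫ x in ball (0 : EE n) 1, ‖x‖ * ‖fderiv ℝ f x‖)
        = (Real.pi * n / 2 - 1) * (Real.sqrt (2 / Real.pi) * (n * gpC n * gpI (n - 2))) * ∫ x in ball (0 : EE n) 1, ‖x‖ * ‖fderiv ℝ f x‖ := by ring
    rw [this, e5]
    have h1 : (n : ℝ) - 1 ≠ 0 := by linarith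
    field_simp
  rw [e6] at h
  exact h

/-- the constrained form follows from the unconstrained one. -/
theorem gp_to_ball0 (hn : 2 ≤ n)
    (h : n * ((gmtOm n)⁻¹ * (∫ x in ball (0 : EE n) 1, f x ^ 2) - ((gmtOm n)⁻¹ * ∫ x in ball (0 : EE n) 1, f x) ^ 2)
        - gpKap n ^ 2 * ∑ i, (∫ x in ball (0 : EE n) 1, x i * f x) ^ 2
      ≤ ((n : ℝ) / 2 - 1 / Real.pi) * (n / (((n : ℝ) - 1) * gmtOm (n - 1))) * ∫ x in ball (0 : EE n) 1, ‖x‖ * ‖fderiv ℝ f x‖)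
    (h0 : ∫ x in ball (0 : EE n) 1, f x = 0) (h1 : ∀ i, ∫ x in ball (0 : EE n) 1, x i * f x = 0) :
    ∫ x in ball (0 : EE n) 1, f x ^ 2
      ≤ n * gmtOm n / (2 * ((n : ℝ) - 1) * gmtOm (n - 1)) * (1 - 2 / (Real.pi * n)) * ∫ x in ball (0 : EE n) 1, ‖x‖ * ‖fderiv ℝ f x‖ := by
  have hn' : (2 : ℝ) ≤ n := by exact_mod_cast hn
  simp only [h0, h1] at h
  have hpi := Real.pi_pos
  have hω := gp_om_pos (n - 1)
  have hω' := gp_om_pos n
  have h2 : (n : ℝ) - 1 ≠ 0 := by linarith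
  have h3 : (n : ℝ) ≠ 0 := by linarith
  set I := ∫ x in ball (0 : EE n) 1, ‖x‖ * ‖fderiv ℝ f x‖ with hI
  set A := ∫ x in ball (0 : EE n) 1, f x ^ 2 with hA
  have h4 : n * ((gmtOm n)⁻¹ * A) ≤ ((n : ℝ) / 2 - 1 / Real.pi) * (n / (((n : ℝ) - 1) * gmtOm (n - 1))) * I := by
    simpa using h
  have h5 : A = gmtOm n / n * (n * ((gmtOm n)⁻¹ * A)) := by field_simp
  rw [h5]
  calc gmtOm n / n * (n * ((gmtOm n)⁻¹ * A))
      ≤ gmtOm n / n * (((n : ℝ) / 2 - 1 / Real.pi) * (n / (((n : ℝ) - 1) * gmtOm (n - 1))) * I) := by gcongr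
    _ = _ := by field_simp

/-- **the gap inequality on the unit ball**, no constraint. -/
theorem gp_ball (hn : 2 ≤ n) (hf : GpFun n f) :
    n * ((gmtOm n)⁻¹ * (∫ x in ball (0 : EE n) 1, f x ^ 2) - ((gmtOm n)⁻¹ * ∫ x in ball (0 : EE n) 1, f x) ^ 2)
        - gpKap n ^ 2 * ∑ i, (∫ x in ball (0 : EE n) 1, x i * f x) ^ 2
      ≤ ((n : ℝ) / 2 - 1 / Real.pi) * (n / (((n : ℝ) - 1) * gmtOm (n - 1))) * ∫ x in ball (0 : EE n) 1, ‖x‖ * ‖fderiv ℝ f x‖ :=
  gp_to_ball hn hf.hom (gp_gauss hn hf)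

/-- **the gap inequality on the unit ball**, constrained form. -/
theorem gp_ball0 (hn : 2 ≤ n) (hf : GpFun n f) (h0 : ∫ x in ball (0 : EE n) 1, f x = 0)
    (h1 : ∀ i, ∫ x in ball (0 : EE n) 1, x i * f x = 0) :
    ∫ x in ball (0 : EE n) 1, f x ^ 2
      ≤ n * gmtOm n / (2 * ((n : ℝ) - 1) * gmtOm (n - 1)) * (1 - 2 / (Real.pi * n)) * ∫ x in ball (0 : EE n) 1, ‖x‖ * ‖fderiv ℝ f x‖ :=
  gp_to_ball0 hn (gp_ball hn hf) h0 h1

/-- the unconstrained ball form for `f` of class `C¹` off the origin (sorry-free closure: helper137's `gp_main`). -/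
theorem gp_ball_c1 (hn : 2 ≤ n) (hom : ∀ t : ℝ, 0 < t → ∀ x, f (t • x) = f x) (hsm : ContDiffOn ℝ 1 f {0}ᶜ) (hb : ∀ x, |f x| ≤ 1) :
    n * ((gmtOm n)⁻¹ * (∫ x in ball (0 : EE n) 1, f x ^ 2) - ((gmtOm n)⁻¹ * ∫ x in ball (0 : EE n) 1, f x) ^ 2)
        - gpKap n ^ 2 * ∑ i, (∫ x in ball (0 : EE n) 1, x i * f x) ^ 2
      ≤ ((n : ℝ) / 2 - 1 / Real.pi) * (n / (((n : ℝ) - 1) * gmtOm (n - 1))) * ∫ x in ball (0 : EE n) 1, ‖x‖ * ‖fderiv ℝ f x‖ :=
  gp_to_ball hn hom (gp_main hn hom hsm hb)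

/-- the constrained ball form for `f` of class `C¹` off the origin. -/
theorem gp_ball0_c1 (hn : 2 ≤ n) (hom : ∀ t : ℝ, 0 < t → ∀ x, f (t • x) = f x) (hsm : ContDiffOn ℝ 1 f {0}ᶜ) (hb : ∀ x, |f x| ≤ 1)
    (h0 : ∫ x in ball (0 : EE n) 1, f x = 0) (h1 : ∀ i, ∫ x in ball (0 : EE n) 1, x i * f x = 0) :
    ∫ x in ball (0 : EE n) 1, f x ^ 2
      ≤ n * gmtOm n / (2 * ((n : ℝ) - 1) * gmtOm (n - 1)) * (1 - 2 / (Real.pi * n)) * ∫ x in ball (0 : EE n) 1, ‖x‖ * ‖fderiv ℝ f x‖ :=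
  gp_to_ball0 hn (gp_ball_c1 hn hom hsm hb) h0 h1

end Claimed.Agent.R323
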