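/-
Row 323, block GAP (R323/Gap, prefix gp_).  Architect: helper137.
Step (b): the rotation trick with the weight `K = |X+Z|²/2`.
-/
import Claimed.Agent.R323.Gap.Mom

set_option autoImplicit false

namespace Claimed.Agent.R323

open MeasureTheory ProbabilityTheory Filter Topology Set Metric
open Claimed.Agent.R260 (EE gam PG BM)

variable {n : ℕ}

/-- the rotation of angle `s` in `E × E`. -/
noncomputable def gpRot (s : ℝ) (p : EE n × EE n) : EE n × EE n :=
  (Real.cos s • p.1 + Real.sin s • p.2, -Real.sin s • p.1 + Real.cos s • p.2)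

theorem gp_rot_map (s : ℝ) :
    ((gam n).prod (gam n)).map (gpRot s) = (gam n).prod (gam n) :=
  IsGaussian.map_rotation_eq_self (μ := gam n) (by simp) s

theorem gp_continuous_rot : Continuous (fun a : ℝ × (EE n × EE n) => gpRot a.1 a.2) := by
  unfold gpRot
  fun_prop

/-- the directional derivative as a function of (point, direction). -/
noncomputable def gpD (f : EE n → ℝ) (q : EE n × EE n) : ℝ := fderiv ℝ f q.1 q.2

theorem gp_measurable_D (f : EE n → ℝ) : Measurable (gpD f) := by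
  have h1 : Measurable (fun q : EE n × EE n => (fderiv ℝ f q.1, q.2)) :=
    ((measurable_fderiv ℝ f).comp measurable_fst).prodMk measurable_snd
  exact (isBoundedBilinearMap_apply (𝕜 := ℝ) (E := EE n) (F := ℝ)).continuous.measurable.comp h1

/-- the rotated kernel. -/
noncomputable def gpKr (s : ℝ) (q : EE n × EE n) : ℝ :=
  ‖(Real.cos s + Real.sin s) • q.1 + (Real.cos s - Real.sin s) • q.2‖ ^ 2 / 2

/-- generates the equation lemmas of the definitions above in this file (rule 6: unique names) -/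
theorem gp_rot_eqns_cite : True := by
  have := @gpRot.eq_1
  have := @gpD.eq_1
  have := @gpKr.eq_1
  trivial

theorem gp_K_rot (s : ℝ) (p : EE n × EE n) : ‖p.1 + p.2‖ ^ 2 / 2 = gpKr s (gpRot s p) := by
  unfold gpKr gpRot
  congr 3
  have h := Real.cos_sq_add_sin_sq s
  simp only [smul_add, smul_smul]
  have e1 : (Real.cos s + Real.sin s) * Real.cos s + (Real.cos s - Real.sin s) * -Real.sin s = 1 := by
    nlinarith
  have e2 : (Real.cos s + Real.sin s) * Real.sin s + (Real.cos s - Real.sin s) * Real.cos s = 1 := by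
    nlinarith
  calc p.1 + p.2 = ((Real.cos s + Real.sin s) * Real.cos s
        + (Real.cos s - Real.sin s) * -Real.sin s) • p.1
      + ((Real.cos s + Real.sin s) * Real.sin s + (Real.cos s - Real.sin s) * Real.cos s) • p.2 := by
        rw [e1, e2, one_smul, one_smul]
    _ = _ := by
        simp only [add_smul]
        abel

theorem gp_Kr_eq (s : ℝ) (q : EE n × EE n) :
    gpKr s q = (1 + Real.sin (2 * s)) / 2 * ‖q.1‖ ^ 2 + (1 - Real.sin (2 * s)) / 2 * ‖q.2‖ ^ 2
      + Real.cos (2 * s) * inner ℝ q.1 q.2 := by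
  unfold gpKr
  rw [norm_add_sq_real, norm_smul, norm_smul, inner_smul_left, inner_smul_right, mul_pow, mul_pow,
    Real.norm_eq_abs, Real.norm_eq_abs, sq_abs, sq_abs, Real.sin_two_mul, Real.cos_two_mul]
  have h := Real.cos_sq_add_sin_sq s
  simp only [conj_trivial]
  have e1 : (Real.cos s + Real.sin s) ^ 2 = 1 + 2 * Real.sin s * Real.cos s := by nlinarith
  have e2 : (Real.cos s - Real.sin s) ^ 2 = 1 - 2 * Real.sin s * Real.cos s := by nlinarith
  have e3 : (Real.cos s + Real.sin s) * (Real.cos s - Real.sin s) = 2 * Real.cos s ^ 2 - 1 := by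
    nlinarith
  rw [e1, e2]
  have : (Real.cos s + Real.sin s) * ((Real.cos s - Real.sin s) * inner ℝ q.1 q.2)
      = (2 * Real.cos s ^ 2 - 1) * inner ℝ q.1 q.2 := by rw [← mul_assoc, e3]
  rw [this]
  ring

theorem gp_Kr_int (q : EE n × EE n) :
    ∫ s in (0 : ℝ)..(Real.pi / 2), gpKr s q
      = (Real.pi / 4 + 1 / 2) * ‖q.1‖ ^ 2 + (Real.pi / 4 - 1 / 2) * ‖q.2‖ ^ 2 := by
  set A := ‖q.1‖ ^ 2
  set B := ‖q.2‖ ^ 2
  set t : ℝ := inner ℝ q.1 q.2
  have hd : ∀ s ∈ uIcc (0 : ℝ) (Real.pi / 2),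
      HasDerivAt (fun s : ℝ => (s / 2 - Real.cos (2 * s) / 4) * A
        + (s / 2 + Real.cos (2 * s) / 4) * B + Real.sin (2 * s) / 2 * t) (gpKr s q) s := by
    intro s _
    rw [gp_Kr_eq]
    have h2 : HasDerivAt (fun s : ℝ => 2 * s) 2 s := by
      simpa using (hasDerivAt_id s).const_mul 2
    have hc := (Real.hasDerivAt_cos (2 * s)).comp s h2
    have hs := (Real.hasDerivAt_sin (2 * s)).comp s h2
    have h1 := ((((hasDerivAt_id s).div_const 2).sub (hc.div_const 4)).mul_const A).add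
      ((((hasDerivAt_id s).div_const 2).add (hc.div_const 4)).mul_const B)
    have h3 := h1.add ((hs.div_const 2).mul_const t)
    refine h3.congr_deriv ?_

    ring
  have hcont : Continuous (fun s : ℝ => gpKr s q) := by
    unfold gpKr; fun_prop
  rw [intervalIntegral.integral_eq_sub_of_hasDerivAt hd (hcont.intervalIntegrable _ _)]
  have e1 : 2 * (Real.pi / 2) = Real.pi := by ring
  simp only [e1, Real.cos_pi, Real.sin_pi, mul_zero, Real.cos_zero, Real.sin_zero]
  ring

theorem gp_dep_of_comb {x z : EE n} {a b : ℝ} (hab : a ^ 2 + b ^ 2 = 1) (h : a • x + b • z = 0) :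
    (inner ℝ x z : ℝ) ^ 2 = ‖x‖ ^ 2 * ‖z‖ ^ 2 := by
  have h1 : a * ‖x‖ ^ 2 + b * inner ℝ x z = 0 := by
    have := congrArg (fun w => (inner ℝ x w : ℝ)) h
    simpa [inner_add_right, inner_smul_right, real_inner_self_eq_norm_sq] using this
  have h2 : a * inner ℝ x z + b * ‖z‖ ^ 2 = 0 := by
    have := congrArg (fun w => (inner ℝ w z : ℝ)) h
    simpa [inner_add_left, inner_smul_left, real_inner_self_eq_norm_sq] using this
  set t : ℝ := inner ℝ x z
  set A := ‖x‖ ^ 2
  set B := ‖z‖ ^ 2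
  -- (a²+b²)(t² - AB) = 0
  have : (a ^ 2 + b ^ 2) * (t ^ 2 - A * B) = 0 := by
    have e1 : a * A = -(b * t) := by linarith
    have e2 : b * B = -(a * t) := by linarith
    have : (a ^ 2 + b ^ 2) * (t ^ 2 - A * B)
        = a ^ 2 * t ^ 2 + b ^ 2 * t ^ 2 - a * (a * A) * B - b * (b * B) * A := by ring
    rw [this, e1, e2]
    have : a ^ 2 * t ^ 2 + b ^ 2 * t ^ 2 - a * -(b * t) * B - b * -(a * t) * A
        = a ^ 2 * t ^ 2 + b ^ 2 * t ^ 2 + a * t * (b * B) + b * t * (a * A) := by ring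
    rw [this, e1, e2]
    ring
  rw [hab, one_mul] at this
  linarith

theorem gp_mem_span_of_dep {x z : EE n} (hx : x ≠ 0)
    (h : (inner ℝ x z : ℝ) ^ 2 = ‖x‖ ^ 2 * ‖z‖ ^ 2) : z ∈ Submodule.span ℝ {x} := by
  have hx' : 0 < ‖x‖ ^ 2 := by positivity
  have h0 : ‖(‖x‖ ^ 2) • z - (inner ℝ x z : ℝ) • x‖ ^ 2 = 0 := by
    rw [norm_sub_sq_real, norm_smul, norm_smul, inner_smul_left, inner_smul_right, mul_pow, mul_pow,
      Real.norm_eq_abs, Real.norm_eq_abs, sq_abs, sq_abs, real_inner_comm x z]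
    simp only [conj_trivial]
    set t : ℝ := inner ℝ x z
    have : (‖x‖ ^ 2) ^ 2 * ‖z‖ ^ 2 - 2 * (‖x‖ ^ 2 * (t * t)) + t ^ 2 * ‖x‖ ^ 2
        = ‖x‖ ^ 2 * (‖x‖ ^ 2 * ‖z‖ ^ 2 - t ^ 2) := by ring
    rw [this, ← h]; ring
  have h1 : (‖x‖ ^ 2) • z - (inner ℝ x z : ℝ) • x = 0 := by
    simpa using h0
  have h2 : z = ((‖x‖ ^ 2)⁻¹ * (inner ℝ x z : ℝ)) • x := by
    have : (‖x‖ ^ 2) • z = (inner ℝ x z : ℝ) • x := sub_eq_zero.1 h1
    rw [mul_smul, ← this, smul_smul, inv_mul_cancel₀ hx'.ne', one_smul]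
  rw [h2]
  exact Submodule.smul_mem _ _ (Submodule.mem_span_singleton_self x)

theorem gp_ae_indep (hn : 2 ≤ n) :
    ∀ᵐ p : EE n × EE n ∂((gam n).prod (gam n)),
      (inner ℝ p.1 p.2 : ℝ) ^ 2 ≠ ‖p.1‖ ^ 2 * ‖p.2‖ ^ 2 := by
  have : Nonempty (Fin n) := ⟨⟨0, by omega⟩⟩
  have hmeas : MeasurableSet {p : EE n × EE n |
      (inner ℝ p.1 p.2 : ℝ) ^ 2 ≠ ‖p.1‖ ^ 2 * ‖p.2‖ ^ 2} := by
    have : IsOpen {p : EE n × EE n | (inner ℝ p.1 p.2 : ℝ) ^ 2 ≠ ‖p.1‖ ^ 2 * ‖p.2‖ ^ 2} :=
      isOpen_ne_fun (by fun_prop) (by fun_prop)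
    exact this.measurableSet
  rw [Measure.ae_prod_iff_ae_ae hmeas]
  have h0 : ∀ᵐ x ∂gam n, x ≠ 0 := by
    refine Claimed.Agent.R260.gk_gam_ac_volume.ae_le ?_
    have : (volume : Measure (EE n)) {x | ¬ x ≠ 0} = 0 := by
      have h : {x : EE n | ¬ x ≠ 0} = {0} := by ext x; simp
      rw [h]; exact measure_singleton _
    exact this
  filter_upwards [h0] with x hx
  refine Claimed.Agent.R260.gk_gam_ac_volume.ae_le ?_
  have hs : Submodule.span ℝ {x} ≠ ⊤ := by
    intro htop
    have h1 : Module.finrank ℝ (Submodule.span ℝ {x}) = 1 := finrank_span_singleton hx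
    rw [htop, finrank_top] at h1
    simp at h1
    omega
  have hnull := Measure.addHaar_submodule (volume : Measure (EE n)) _ hs
  refine measure_mono_null (fun z hz => ?_) hnull
  have hz' : (inner ℝ x z : ℝ) ^ 2 = ‖x‖ ^ 2 * ‖z‖ ^ 2 := by
    by_contra hcon
    exact hz hcon
  exact gp_mem_span_of_dep hx hz'

/-- a.e. pair is linearly independent: the path avoids the origin. -/
theorem gp_path_ne (hn : 2 ≤ n) :
    ∀ᵐ p : EE n × EE n ∂((gam n).prod (gam n)), ∀ s : ℝ, (gpRot s p).1 ≠ 0 := by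
  filter_upwards [gp_ae_indep hn] with p hp s hs
  exact hp (gp_dep_of_comb (Real.cos_sq_add_sin_sq s) hs)

/-- the fundamental theorem of calculus along the path. -/
theorem gp_ftc {f : EE n → ℝ} (hsm : ContDiffOn ℝ 1 f {0}ᶜ) (p : EE n × EE n)
    (hp : ∀ s : ℝ, (gpRot s p).1 ≠ 0) :
    ENNReal.ofReal |f p.1 - f p.2|
      ≤ ∫⁻ s in Ioc (0 : ℝ) (Real.pi / 2), ENNReal.ofReal |gpD f (gpRot s p)| := by
  have hopen : IsOpen ({0}ᶜ : Set (EE n)) := isOpen_compl_singleton
  have hc : ∀ s : ℝ, HasDerivAt (fun s : ℝ => (gpRot s p).1) (gpRot s p).2 s := by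
    intro s
    have h1 := ((Real.hasDerivAt_cos s).smul_const p.1).add
      ((Real.hasDerivAt_sin s).smul_const p.2)
    exact h1
  have hd : ∀ s ∈ uIcc (0 : ℝ) (Real.pi / 2),
      HasDerivAt (fun s : ℝ => f (gpRot s p).1) (gpD f (gpRot s p)) s := by
    intro s _
    have h1 : DifferentiableAt ℝ f (gpRot s p).1 :=
      (hsm.differentiableOn one_ne_zero).differentiableAt (hopen.mem_nhds (hp s))
    exact h1.hasFDerivAt.comp_hasDerivAt s (hc s)
  have hcont : Continuous (fun s : ℝ => gpD f (gpRot s p)) := by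
    have h1 : ContinuousOn (fderiv ℝ f) {0}ᶜ := hsm.continuousOn_fderiv_of_isOpen hopen le_rfl
    have h2 : Continuous (fun s : ℝ => gpRot s p) := by
      unfold gpRot
      fun_prop
    have h3 : Continuous (fun s : ℝ => fderiv ℝ f (gpRot s p).1) :=
      h1.comp_continuous (continuous_fst.comp h2) hp
    exact h3.clm_apply (continuous_snd.comp h2)
  have hpi : (0 : ℝ) ≤ Real.pi / 2 := by positivity
  have h1 := intervalIntegral.integral_eq_sub_of_hasDerivAt hd (hcont.intervalIntegrable _ _)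
  have e0 : (gpRot 0 p).1 = p.1 := by simp [gpRot]
  have e1 : (gpRot (Real.pi / 2) p).1 = p.2 := by simp [gpRot]
  rw [e0, e1] at h1
  have h2 : |f p.1 - f p.2| ≤ ∫ s in (0 : ℝ)..(Real.pi / 2), |gpD f (gpRot s p)| := by
    rw [abs_sub_comm, ← h1]
    exact intervalIntegral.abs_integral_le_integral_abs hpi
  rw [intervalIntegral.integral_of_le hpi] at h2
  refine (ENNReal.ofReal_le_ofReal h2).trans (le_of_eq ?_)
  refine ofReal_integral_eq_lintegral_ofReal ?_ (Eventually.of_forall fun s => abs_nonneg _)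
  have := (hcont.abs.intervalIntegrable (μ := volume) 0 (Real.pi / 2))
  rwa [intervalIntegrable_iff_integrableOn_Ioc_of_le hpi] at this

theorem gp_ftc_ae (hn : 2 ≤ n) {f : EE n → ℝ} (hsm : ContDiffOn ℝ 1 f {0}ᶜ) :
    ∀ᵐ p : EE n × EE n ∂((gam n).prod (gam n)), ENNReal.ofReal |f p.1 - f p.2|
      ≤ ∫⁻ s in Ioc (0 : ℝ) (Real.pi / 2), ENNReal.ofReal |gpD f (gpRot s p)| := by
  filter_upwards [gp_path_ne hn] with p hp
  exact gp_ftc hsm p hp

/-- **Step (b)**, first half.  The only input on `f` is the a.e. inequality `hftc`. -/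
theorem gp_rot {f : EE n → ℝ}
    (hftc : ∀ᵐ p : EE n × EE n ∂((gam n).prod (gam n)), ENNReal.ofReal |f p.1 - f p.2|
      ≤ ∫⁻ s in Ioc (0 : ℝ) (Real.pi / 2), ENNReal.ofReal |gpD f (gpRot s p)|) :
    ∫⁻ p : EE n × EE n, ENNReal.ofReal (‖p.1 + p.2‖ ^ 2 / 2 * |f p.1 - f p.2|)
        ∂((gam n).prod (gam n))
      ≤ ∫⁻ q : EE n × EE n, ENNReal.ofReal
          (((Real.pi / 4 + 1 / 2) * ‖q.1‖ ^ 2 + (Real.pi / 4 - 1 / 2) * ‖q.2‖ ^ 2) * |gpD f q|)
        ∂((gam n).prod (gam n)) := by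
  have hDm := gp_measurable_D f
  have hpi : (0 : ℝ) ≤ Real.pi / 2 := by positivity
  have hm1 : Measurable (fun a : ℝ × (EE n × EE n) => ENNReal.ofReal |gpD f (gpRot a.1 a.2)|) :=
    (continuous_abs.measurable.comp (hDm.comp gp_continuous_rot.measurable)).ennreal_ofReal
  have hm2 : Measurable (fun q : EE n × EE n => ENNReal.ofReal |gpD f q|) :=
    (continuous_abs.measurable.comp hDm).ennreal_ofReal
  have hK : Measurable (fun p : EE n × EE n => ENNReal.ofReal (‖p.1 + p.2‖ ^ 2 / 2)) := by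
    fun_prop
  have hKrc : Continuous (fun a : ℝ × (EE n × EE n) => gpKr a.1 a.2) := by
    unfold gpKr; fun_prop
  have hKr : Measurable (fun a : ℝ × (EE n × EE n) => ENNReal.ofReal (gpKr a.1 a.2)) :=
    hKrc.measurable.ennreal_ofReal
  have hrot : ∀ s : ℝ, Measurable (gpRot (n := n) s) := fun s => by
    unfold gpRot; fun_prop
  calc ∫⁻ p : EE n × EE n, ENNReal.ofReal (‖p.1 + p.2‖ ^ 2 / 2 * |f p.1 - f p.2|)
        ∂((gam n).prod (gam n))
      ≤ ∫⁻ p : EE n × EE n, ENNReal.ofReal (‖p.1 + p.2‖ ^ 2 / 2) *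
          (∫⁻ s in Ioc (0 : ℝ) (Real.pi / 2), ENNReal.ofReal |gpD f (gpRot s p)|)
          ∂((gam n).prod (gam n)) := by
        refine lintegral_mono_ae ?_
        filter_upwards [hftc] with p hp
        rw [ENNReal.ofReal_mul (by positivity)]
        exact mul_le_mul_right hp _
    _ = ∫⁻ p : EE n × EE n, (∫⁻ s in Ioc (0 : ℝ) (Real.pi / 2),
          ENNReal.ofReal (‖p.1 + p.2‖ ^ 2 / 2) * ENNReal.ofReal |gpD f (gpRot s p)|)
          ∂((gam n).prod (gam n)) := by
        refine lintegral_congr fun p => ?_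
        have hr : Measurable (fun s : ℝ => gpRot s p) := by
          unfold gpRot; fun_prop
        have hms : Measurable (fun s : ℝ => ENNReal.ofReal |gpD f (gpRot s p)|) :=
          hm2.comp hr
        rw [lintegral_const_mul _ hms]
    _ = ∫⁻ s in Ioc (0 : ℝ) (Real.pi / 2), ∫⁻ p : EE n × EE n,
          ENNReal.ofReal (‖p.1 + p.2‖ ^ 2 / 2) * ENNReal.ofReal |gpD f (gpRot s p)|
          ∂((gam n).prod (gam n)) := by
        have hms : Measurable (fun a : (EE n × EE n) × ℝ =>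
            ENNReal.ofReal (‖a.1.1 + a.1.2‖ ^ 2 / 2) * ENNReal.ofReal |gpD f (gpRot a.2 a.1)|) :=
          (hK.comp measurable_fst).mul (hm2.comp (by unfold gpRot; fun_prop))
        rw [lintegral_lintegral_swap]
        exact hms.aemeasurable
    _ = ∫⁻ s in Ioc (0 : ℝ) (Real.pi / 2), ∫⁻ q : EE n × EE n,
          ENNReal.ofReal (gpKr s q) * ENNReal.ofReal |gpD f q| ∂((gam n).prod (gam n)) := by
        refine lintegral_congr fun s => ?_
        conv_rhs => rw [← gp_rot_map s]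
        have hms : Measurable (fun q : EE n × EE n =>
            ENNReal.ofReal (gpKr s q) * ENNReal.ofReal |gpD f q|) :=
          (Measurable.ennreal_ofReal (by unfold gpKr; fun_prop)).mul hm2
        rw [lintegral_map hms (hrot s)]
        refine lintegral_congr fun p => ?_
        rw [gp_K_rot s p]
    _ = ∫⁻ q : EE n × EE n, (∫⁻ s in Ioc (0 : ℝ) (Real.pi / 2),
          ENNReal.ofReal (gpKr s q) * ENNReal.ofReal |gpD f q|) ∂((gam n).prod (gam n)) := by
        have hms : Measurable (fun a : ℝ × (EE n × EE n) =>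
            ENNReal.ofReal (gpKr a.1 a.2) * ENNReal.ofReal |gpD f a.2|) :=
          hKr.mul (hm2.comp measurable_snd)
        rw [lintegral_lintegral_swap]
        exact hms.aemeasurable
    _ = _ := by
        refine lintegral_congr fun q => ?_
        have hc : Continuous (fun s : ℝ => gpKr s q) := by
          unfold gpKr; fun_prop
        have hint : IntegrableOn (fun s : ℝ => gpKr s q) (Ioc (0 : ℝ) (Real.pi / 2)) := by
          have := hc.intervalIntegrable (μ := volume) 0 (Real.pi / 2)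
          rwa [intervalIntegrable_iff_integrableOn_Ioc_of_le hpi] at this
        rw [lintegral_mul_const _ hc.measurable.ennreal_ofReal,
          ← ofReal_integral_eq_lintegral_ofReal hint
            (Eventually.of_forall fun s => by unfold gpKr; positivity),
          ← intervalIntegral.integral_of_le hpi, gp_Kr_int, ← ENNReal.ofReal_mul]
        have : (0 : ℝ) ≤ Real.pi / 4 - 1 / 2 := by
          have := Real.pi_gt_three
          linarith
        positivity

end Claimed.Agent.R323
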