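/-
Row 323, block GAP (R323/Gap, prefix gp_).  Architect: helper137.
EXIT of the block: `gp_main` (unconstrained Gaussian form), `gp_gap` (constrained form).
-/
import Claimed.Agent.R323.Gap.Alg
import Claimed.Agent.R323.Gap.Rot

set_option autoImplicit false

namespace Claimed.Agent.R323

open MeasureTheory ProbabilityTheory Filter Topology Set Metric
open Claimed.Agent.R260 (EE gam PG BM)

variable {n : ℕ}

theorem gp_measurable_of_contDiffOn {f : EE n → ℝ} (hsm : ContDiffOn ℝ 1 f {0}ᶜ) :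
    Measurable f := by
  refine measurable_of_measurable_on_compl_singleton 0 ?_
  exact (continuousOn_iff_continuous_domRestrict.1 hsm.continuousOn).measurable

theorem gp_fderiv_hom {f : EE n → ℝ} (hhom : ∀ t : ℝ, 0 < t → ∀ x, f (t • x) = f x)
    (t : ℝ) (ht : 0 < t) (x : EE n) : fderiv ℝ f (t • x) = t⁻¹ • fderiv ℝ f x := by
  have h1 : (fun y => f (t • y)) = f := funext fun y => hhom t ht y
  have h2 := fderiv_comp_smul (𝕜 := ℝ) (f := f) (x := x) t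
  rw [h1] at h2
  rw [h2, smul_smul, inv_mul_cancel₀ ht.ne', one_smul]

theorem gp_hom_norm_fderiv {f : EE n → ℝ} (hhom : ∀ t : ℝ, 0 < t → ∀ x, f (t • x) = f x) :
    GpHom n (-1) (fun x => ‖fderiv ℝ f x‖) := by
  intro t ht x _
  simp only [gp_fderiv_hom hhom t ht x, norm_smul, norm_inv, Real.norm_of_nonneg ht.le,
    Real.rpow_neg_one]

theorem gp_fderiv_bdd {f : EE n → ℝ} (hsm : ContDiffOn ℝ 1 f {0}ᶜ) :
    ∃ C : ℝ, ∀ x : EE n, ‖x‖ = 1 → |‖fderiv ℝ f x‖| ≤ C := by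
  have h1 : ContinuousOn (fderiv ℝ f) {0}ᶜ :=
    hsm.continuousOn_fderiv_of_isOpen isOpen_compl_singleton le_rfl
  have h2 : ContinuousOn (fderiv ℝ f) (sphere (0 : EE n) 1) := by
    refine h1.mono fun x hx => ?_
    have : ‖x‖ = 1 := by simpa using hx
    intro h0
    rw [mem_singleton_iff] at h0
    rw [h0] at this
    simp at this
  obtain ⟨C, hC⟩ := (isCompact_sphere (0 : EE n) 1).exists_bound_of_continuousOn h2
  exact ⟨C, fun x hx => by rw [abs_norm]; exact hC x (by simpa using hx)⟩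

theorem gp_PG_abs_dual (L : StrongDual ℝ (EE n)) : PG (fun z => |L z|) := by
  refine ⟨by fun_prop, ‖L‖, 1, fun z => ?_⟩
  rw [abs_abs, pow_one]
  calc |L z| ≤ ‖L‖ * ‖z‖ := L.le_opNorm z
    _ ≤ ‖L‖ * (1 + ‖z‖) := by gcongr; linarith

/-- the inner integral. -/
theorem gp_inner_int (hn : 1 ≤ n) (L : StrongDual ℝ (EE n)) (a b : ℝ) :
    Integrable (fun z : EE n => (a + b * ‖z‖ ^ 2) * |L z|) (gam n) ∧
    ∫ z : EE n, (a + b * ‖z‖ ^ 2) * |L z| ∂gam n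
      = Real.sqrt (2 / Real.pi) * ((a + b * ((n : ℝ) + 1)) * ‖L‖) := by
  have i1 : Integrable (fun z : EE n => |L z|) (gam n) := (gp_PG_abs_dual L).integrable
  have i2 : Integrable (fun z : EE n => ‖z‖ ^ 2 * |L z|) (gam n) :=
    (gp_PG_norm_sq.mul (gp_PG_abs_dual L)).integrable
  have e : (fun z : EE n => (a + b * ‖z‖ ^ 2) * |L z|)
      = fun z => a * |L z| + b * (‖z‖ ^ 2 * |L z|) := by
    funext z; ring
  rw [e]
  refine ⟨(i1.const_mul a).add (i2.const_mul b), ?_⟩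
  rw [integral_add (i1.const_mul a) (i2.const_mul b), integral_const_mul, integral_const_mul,
    gp_abs_dual, gp_sq_abs_dual hn]
  ring

/-- **Step (b)**, second half: evaluation of the right-hand side of `gp_rot`. -/
theorem gp_eval (hn : 2 ≤ n) {f : EE n → ℝ} (hhom : ∀ t : ℝ, 0 < t → ∀ x, f (t • x) = f x)
    {C : ℝ} (hC : ∀ x : EE n, ‖x‖ = 1 → |‖fderiv ℝ f x‖| ≤ C) :
    ∫⁻ q : EE n × EE n, ENNReal.ofReal
          (((Real.pi / 4 + 1 / 2) * ‖q.1‖ ^ 2 + (Real.pi / 4 - 1 / 2) * ‖q.2‖ ^ 2) * |gpD f q|)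
        ∂((gam n).prod (gam n))
      = ENNReal.ofReal (Real.sqrt (2 / Real.pi) * (Real.pi * n / 2 - 1)
          * ∫ x, ‖fderiv ℝ f x‖ ∂gam n) := by
  have hn1 : 1 ≤ n := by omega
  have hnR : (2 : ℝ) ≤ n := by exact_mod_cast hn
  have hβ : (0 : ℝ) ≤ Real.pi / 4 - 1 / 2 := by
    have := Real.pi_gt_three
    linarith
  have hα : (0 : ℝ) ≤ Real.pi / 4 + 1 / 2 := by positivity
  have hDm := gp_measurable_D f
  have hh := gp_hom_norm_fderiv hhom
  have hmeas : Measurable (fun x : EE n => ‖fderiv ℝ f x‖) := (measurable_fderiv ℝ f).norm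
  have j1 : Integrable (fun x : EE n => ‖fderiv ℝ f x‖) (gam n) :=
    gp_integrable_hom hn1 (by linarith) hh hmeas.aestronglyMeasurable hC
  have j2 : Integrable (fun x : EE n => ‖x‖ ^ 2 * ‖fderiv ℝ f x‖) (gam n) := by
    refine gp_integrable_hom hn1 (k := -1 + 2) (by linarith) hh.norm_sq_mul
      (by fun_prop) (C := C) fun x hx => ?_
    rw [hx]; simpa using hC x hx
  rw [lintegral_prod _ (by
    refine Measurable.aemeasurable (Measurable.ennreal_ofReal ?_)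
    exact (by fun_prop : Measurable fun q : EE n × EE n =>
      (Real.pi / 4 + 1 / 2) * ‖q.1‖ ^ 2 + (Real.pi / 4 - 1 / 2) * ‖q.2‖ ^ 2).mul
      (continuous_abs.measurable.comp hDm))]
  have hin : ∀ x : EE n, ∫⁻ z : EE n, ENNReal.ofReal
      (((Real.pi / 4 + 1 / 2) * ‖x‖ ^ 2 + (Real.pi / 4 - 1 / 2) * ‖z‖ ^ 2) * |gpD f (x, z)|) ∂gam n
      = ENNReal.ofReal (Real.sqrt (2 / Real.pi) * (((Real.pi / 4 + 1 / 2) * ‖x‖ ^ 2
          + (Real.pi / 4 - 1 / 2) * ((n : ℝ) + 1)) * ‖fderiv ℝ f x‖)) := by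
    intro x
    obtain ⟨i, e⟩ := gp_inner_int hn1 (fderiv ℝ f x) ((Real.pi / 4 + 1 / 2) * ‖x‖ ^ 2)
      (Real.pi / 4 - 1 / 2)
    rw [← e, ofReal_integral_eq_lintegral_ofReal i
      (Eventually.of_forall fun z => by positivity)]
    rfl
  simp_rw [hin]
  have e2 : (fun x : EE n => Real.sqrt (2 / Real.pi) * (((Real.pi / 4 + 1 / 2) * ‖x‖ ^ 2
          + (Real.pi / 4 - 1 / 2) * ((n : ℝ) + 1)) * ‖fderiv ℝ f x‖))
      = fun x => Real.sqrt (2 / Real.pi) * (Real.pi / 4 + 1 / 2) * (‖x‖ ^ 2 * ‖fderiv ℝ f x‖)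
          + Real.sqrt (2 / Real.pi) * ((Real.pi / 4 - 1 / 2) * ((n : ℝ) + 1)) * ‖fderiv ℝ f x‖ := by
    funext x; ring
  have j3 := (j2.const_mul (Real.sqrt (2 / Real.pi) * (Real.pi / 4 + 1 / 2))).add
    (j1.const_mul (Real.sqrt (2 / Real.pi) * ((Real.pi / 4 - 1 / 2) * ((n : ℝ) + 1))))
  rw [← ofReal_integral_eq_lintegral_ofReal (by rw [e2]; exact j3)
    (Eventually.of_forall fun x => by positivity), e2,
    integral_add (j2.const_mul _) (j1.const_mul _), integral_const_mul, integral_const_mul,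
    gp_moment hn1 (by linarith) hh]
  congr 1
  ring

/-- **The abstract form**: what is used of `f`: measurable, `0`-homogeneous, `|f| ≤ 1`, `fderiv` bounded on the
unit sphere, and the a.e. inequality along the quarter circles `hftc`. -/
theorem gp_main_abs (hn : 2 ≤ n) {f : EE n → ℝ}
    (hhom : ∀ t : ℝ, 0 < t → ∀ x, f (t • x) = f x) (hfm : Measurable f) (hb : ∀ x, |f x| ≤ 1)
    {C : ℝ} (hC : ∀ x : EE n, ‖x‖ = 1 → |‖fderiv ℝ f x‖| ≤ C)
    (hftc : ∀ᵐ p : EE n × EE n ∂((gam n).prod (gam n)), ENNReal.ofReal |f p.1 - f p.2|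
      ≤ ∫⁻ s in Ioc (0 : ℝ) (Real.pi / 2), ENNReal.ofReal |gpD f (gpRot s p)|) :
    (n : ℝ) * ((∫ x, f x ^ 2 ∂gam n) - (∫ x, f x ∂gam n) ^ 2)
      - ∑ i, (∫ x, x i * f x ∂gam n) ^ 2
      ≤ Real.sqrt (2 / Real.pi) * (Real.pi * n / 2 - 1) * ∫ x, ‖fderiv ℝ f x‖ ∂gam n := by
  have hn1 : 1 ≤ n := by omega
  have hnR : (2 : ℝ) ≤ n := by exact_mod_cast hn
  have hBM : BM f := ⟨hfm, 1, hb⟩
  have hh0 : GpHom n 0 f := fun t ht x _ => by rw [hhom t ht x, Real.rpow_zero, one_mul]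
  obtain ⟨I, E⟩ := gp_alg hn1 hBM hh0
  -- the middle quantity
  have hmid : Integrable (fun p : EE n × EE n => ‖p.1 + p.2‖ ^ 2 / 2 * |f p.1 - f p.2|)
      ((gam n).prod (gam n)) := by
    have g1 := gp_integrable_prod (n := n) gp_PG_norm_sq (gp_PG_const 1)
    have g2 := gp_integrable_prod (n := n) (gp_PG_const 1) gp_PG_norm_sq
    refine ((g1.const_mul 2).add (g2.const_mul 2)).mono' ?_ (Eventually.of_forall fun p => ?_)
    · refine Measurable.aestronglyMeasurable ?_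
      exact (by fun_prop : Measurable fun p : EE n × EE n => ‖p.1 + p.2‖ ^ 2 / 2).mul
        (continuous_abs.measurable.comp
          ((hfm.comp measurable_fst).sub (hfm.comp measurable_snd)))
    · have h2 : |f p.1 - f p.2| ≤ 2 := by
        have := abs_sub (f p.1) (f p.2)
        have := hb p.1
        have := hb p.2
        linarith
      have h3 : ‖p.1 + p.2‖ ^ 2 ≤ 2 * ‖p.1‖ ^ 2 + 2 * ‖p.2‖ ^ 2 := by
        have h4 := norm_add_le p.1 p.2
        have h5 : ‖p.1 + p.2‖ ^ 2 ≤ (‖p.1‖ + ‖p.2‖) ^ 2 :=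
          pow_le_pow_left₀ (norm_nonneg _) h4 2
        nlinarith [sq_nonneg (‖p.1‖ - ‖p.2‖)]
      rw [Real.norm_of_nonneg (by positivity)]
      show ‖p.1 + p.2‖ ^ 2 / 2 * |f p.1 - f p.2| ≤ 2 * (‖p.1‖ ^ 2 * 1) + 2 * (1 * ‖p.2‖ ^ 2)
      have h6 : (0 : ℝ) ≤ ‖p.1 + p.2‖ ^ 2 / 2 := by positivity
      nlinarith [abs_nonneg (f p.1 - f p.2)]
  have h1 : ∫ p : EE n × EE n, ‖p.1 + p.2‖ ^ 2 / 2 * (f p.1 - f p.2) ^ 2 ∂((gam n).prod (gam n))
      ≤ 2 * ∫ p : EE n × EE n, ‖p.1 + p.2‖ ^ 2 / 2 * |f p.1 - f p.2| ∂((gam n).prod (gam n)) := by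
    rw [← integral_const_mul]
    refine integral_mono I (hmid.const_mul 2) fun p => ?_
    have h2 : |f p.1 - f p.2| ≤ 2 := by
      have := abs_sub (f p.1) (f p.2)
      have := hb p.1
      have := hb p.2
      linarith
    have h3 : (f p.1 - f p.2) ^ 2 ≤ 2 * |f p.1 - f p.2| := by
      rw [← sq_abs]
      nlinarith [abs_nonneg (f p.1 - f p.2)]
    have h4 : (0 : ℝ) ≤ ‖p.1 + p.2‖ ^ 2 / 2 := by positivity
    show ‖p.1 + p.2‖ ^ 2 / 2 * (f p.1 - f p.2) ^ 2 ≤ 2 * (‖p.1 + p.2‖ ^ 2 / 2 * |f p.1 - f p.2|)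
    nlinarith
  have hR : 0 ≤ Real.sqrt (2 / Real.pi) * (Real.pi * n / 2 - 1) * ∫ x, ‖fderiv ℝ f x‖ ∂gam n := by
    have : 0 ≤ ∫ x, ‖fderiv ℝ f x‖ ∂gam n := integral_nonneg fun x => norm_nonneg _
    have h5 : 0 ≤ Real.pi * n / 2 - 1 := by
      have := Real.pi_gt_three
      nlinarith
    positivity
  have h2 : ∫ p : EE n × EE n, ‖p.1 + p.2‖ ^ 2 / 2 * |f p.1 - f p.2| ∂((gam n).prod (gam n))
      ≤ Real.sqrt (2 / Real.pi) * (Real.pi * n / 2 - 1) * ∫ x, ‖fderiv ℝ f x‖ ∂gam n := by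
    have h3 := (gp_rot hftc).trans (gp_eval hn hhom hC).le
    rw [← ofReal_integral_eq_lintegral_ofReal hmid
      (Eventually.of_forall fun p => by positivity)] at h3
    exact (ENNReal.ofReal_le_ofReal_iff hR).1 h3
  rw [E] at h1
  linarith

/-- **EXIT (unconstrained Gaussian form).**  `f` is `0`-homogeneous, `C¹` off the origin, `|f| ≤ 1`. -/
theorem gp_main (hn : 2 ≤ n) {f : EuclideanSpace ℝ (Fin n) → ℝ}
    (hhom : ∀ t : ℝ, 0 < t → ∀ x, f (t • x) = f x)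
    (hsm : ContDiffOn ℝ 1 f {0}ᶜ) (hb : ∀ x, |f x| ≤ 1) :
    (n : ℝ) * ((∫ x, f x ^ 2 ∂stdGaussian (EuclideanSpace ℝ (Fin n)))
        - (∫ x, f x ∂stdGaussian (EuclideanSpace ℝ (Fin n))) ^ 2)
      - ∑ i, (∫ x, x i * f x ∂stdGaussian (EuclideanSpace ℝ (Fin n))) ^ 2
      ≤ Real.sqrt (2 / Real.pi) * (Real.pi * n / 2 - 1)
          * ∫ x, ‖fderiv ℝ f x‖ ∂stdGaussian (EuclideanSpace ℝ (Fin n)) := by
  obtain ⟨C, hC⟩ := gp_fderiv_bdd hsm
  exact gp_main_abs hn hhom (gp_measurable_of_contDiffOn hsm) hb hC (gp_ftc_ae hn hsm)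

end Claimed.Agent.R323
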