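/-
Row 323, block GAP (R323/Gap, prefix gp_).  Skeleton: helper137; owner of the leaves: helper129.
The gap inequality for `0`-homogeneous functions that are LIPSCHITZ on the unit sphere (request of helper120, block B).
Everything is reduced to `gp_main_abs` (Main.lean): three leaves remain.

PLAN.
* `gp_lip_away`: `x ↦ ‖x‖⁻¹ • x` is `2/r`-Lipschitz on `{r ≤ ‖x‖}`, so `f = f ∘ (x/|x|)` is `2L/r`-Lipschitz there.
* `gp_lip_measurable`: `f` is continuous on `{0}ᶜ` (as in `gp_measurable_of_contDiffOn`).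
* `gp_lip_fderiv_bdd`: `norm_fderiv_le_of_lipschitzOn` on the neighbourhood `{1/2 ≤ ‖x‖}` of the sphere.
* `gp_lip_ftc_ae`: for a.e. `p` (a) the path avoids `0` (`gp_path_ne`), hence stays in `{r ≤ ‖x‖}` for some `r > 0`
  (compactness of `[0,π/2]`), so `φ s = f (gpRot s p).1` is Lipschitz on `[0,π/2]`:
  `LipschitzOnWith.absolutelyContinuousOnInterval`, `AbsolutelyContinuousOnInterval.integral_deriv_eq_sub`,
  `AbsolutelyContinuousOnInterval.intervalIntegrable_deriv`;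
  (b) for a.e. `s`, `f` is differentiable at `(gpRot s p).1`: the set `N` of non-differentiability points is measurable
  (`measurableSet_of_differentiableAt`), Lebesgue-null (Rademacher on each `{r ≤ ‖x‖}`:
  `LipschitzOnWith.ae_differentiableWithinAt_of_mem` + interior), so `gam`-null (`gk_gam_ac_volume`); for each fixed `s`
  the law of `(gpRot s p).1` is `gam n` (`gp_rot_map` + `Measure.map_fst_prod`), and Tonelli
  (`Measure.ae_prod_iff_ae_ae` / `lintegral_lintegral_swap` on the indicator) gives: a.e. `p`, a.e. `s`.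
  At such `s` the chain rule gives `deriv φ s = gpD f (gpRot s p)` (as in `gp_ftc`).
-/
import Claimed.Agent.R323.Gap.Main

set_option autoImplicit false

namespace Claimed.Agent.R323

open MeasureTheory ProbabilityTheory Filter Topology Set Metric
open Claimed.Agent.R260 (EE gam PG BM)
open scoped NNReal

variable {n : ℕ}

theorem gp_unit_sub_le {x y : EE n} (hx : x ≠ 0) (hy : y ≠ 0) :
    ‖‖x‖⁻¹ • x - ‖y‖⁻¹ • y‖ ≤ 2 * ‖x - y‖ / ‖x‖ := by
  have hx' : 0 < ‖x‖ := norm_pos_iff.2 hx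
  have hy' : 0 < ‖y‖ := norm_pos_iff.2 hy
  have e : ‖x‖⁻¹ • x - ‖y‖⁻¹ • y = ‖x‖⁻¹ • (x - y) + (‖x‖⁻¹ - ‖y‖⁻¹) • y := by
    rw [smul_sub, sub_smul]; abel
  have e2 : |‖x‖⁻¹ - ‖y‖⁻¹| * ‖y‖ = |‖y‖ - ‖x‖| / ‖x‖ := by
    have : ‖x‖⁻¹ - ‖y‖⁻¹ = (‖y‖ - ‖x‖) / (‖x‖ * ‖y‖) := by field_simp
    rw [this, abs_div, abs_of_pos (mul_pos hx' hy')]
    field_simp
  calc ‖‖x‖⁻¹ • x - ‖y‖⁻¹ • y‖ ≤ ‖‖x‖⁻¹ • (x - y)‖ + ‖(‖x‖⁻¹ - ‖y‖⁻¹) • y‖ := by
        rw [e]; exact norm_add_le _ _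
    _ = ‖x - y‖ / ‖x‖ + |‖y‖ - ‖x‖| / ‖x‖ := by
        rw [norm_smul, norm_smul, Real.norm_eq_abs, Real.norm_eq_abs, e2, abs_of_pos (inv_pos.2 hx'),
          inv_mul_eq_div]
    _ ≤ ‖x - y‖ / ‖x‖ + ‖x - y‖ / ‖x‖ := by
        gcongr
        rw [norm_sub_rev]
        exact abs_norm_sub_norm_le y x
    _ = 2 * ‖x - y‖ / ‖x‖ := by ring

theorem gp_unit_mem {x : EE n} (hx : x ≠ 0) : ‖x‖⁻¹ • x ∈ sphere (0 : EE n) 1 := by
  rw [mem_sphere_zero_iff_norm, norm_smul, norm_inv, norm_norm, inv_mul_cancel₀ (norm_ne_zero_iff.2 hx)]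

theorem gp_lip_away {f : EE n → ℝ} (hhom : ∀ t : ℝ, 0 < t → ∀ x, f (t • x) = f x) {L : ℝ≥0}
    (hL : LipschitzOnWith L f (sphere 0 1)) {r : ℝ} (hr : 0 < r) :
    LipschitzOnWith (L * (2 / r).toNNReal) f {x | r ≤ ‖x‖} := by
  refine LipschitzOnWith.of_dist_le_mul fun x hx y hy => ?_
  have hx' : 0 < ‖x‖ := lt_of_lt_of_le hr hx
  have hy' : 0 < ‖y‖ := lt_of_lt_of_le hr hy
  have hx0 : x ≠ 0 := norm_pos_iff.1 hx'
  have hy0 : y ≠ 0 := norm_pos_iff.1 hy'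
  have h1 := hL.dist_le_mul _ (gp_unit_mem hx0) _ (gp_unit_mem hy0)
  rw [hhom _ (inv_pos.2 hx') x, hhom _ (inv_pos.2 hy') y, dist_eq_norm (‖x‖⁻¹ • x)] at h1
  refine h1.trans ?_
  rw [dist_eq_norm x y, NNReal.coe_mul, Real.coe_toNNReal _ (by positivity : 0 ≤ 2 / r)]
  calc (L : ℝ) * ‖‖x‖⁻¹ • x - ‖y‖⁻¹ • y‖ ≤ L * (2 * ‖x - y‖ / ‖x‖) := by
        gcongr; exact gp_unit_sub_le hx0 hy0
    _ ≤ L * (2 * ‖x - y‖ / r) := by
        gcongr
        exact hx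
    _ = L * (2 / r) * ‖x - y‖ := by ring

theorem gp_away_nhds {x : EE n} {r : ℝ} (h : r < ‖x‖) : {y : EE n | r ≤ ‖y‖} ∈ 𝓝 x := by
  have : {y : EE n | r < ‖y‖} ∈ 𝓝 x := (isOpen_lt continuous_const continuous_norm).mem_nhds h
  exact mem_of_superset this fun y hy => show r ≤ ‖y‖ from le_of_lt hy

theorem gp_lip_measurable {f : EE n → ℝ} (hhom : ∀ t : ℝ, 0 < t → ∀ x, f (t • x) = f x) {L : ℝ≥0}
    (hL : LipschitzOnWith L f (sphere 0 1)) : Measurable f := by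
  refine measurable_of_continuousOn_compl_singleton 0 ?_
  intro x hx
  have hx' : 0 < ‖x‖ := norm_pos_iff.2 hx
  have h := gp_lip_away hhom hL (half_pos hx')
  exact (h.continuousOn.continuousAt (gp_away_nhds (half_lt_self hx'))).continuousWithinAt

theorem gp_lip_fderiv_bdd {f : EE n → ℝ} (hhom : ∀ t : ℝ, 0 < t → ∀ x, f (t • x) = f x) {L : ℝ≥0}
    (hL : LipschitzOnWith L f (sphere 0 1)) :
    ∀ x : EE n, ‖x‖ = 1 → |‖fderiv ℝ f x‖| ≤ 4 * L := by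
  intro x hx
  have h := gp_lip_away hhom hL (r := 1 / 2) (by norm_num)
  have h2 := norm_fderiv_le_of_lipschitzOn ℝ (gp_away_nhds (x := x) (r := 1 / 2) (by rw [hx]; norm_num)) h
  rw [abs_of_nonneg (norm_nonneg _)]
  refine h2.trans (le_of_eq ?_)
  rw [NNReal.coe_mul, Real.coe_toNNReal _ (by norm_num : (0 : ℝ) ≤ 2 / (1 / 2))]
  ring

/-- Rademacher off the origin. -/
theorem gp_lip_ae_differentiableAt (hn : 1 ≤ n) {f : EE n → ℝ}
    (hhom : ∀ t : ℝ, 0 < t → ∀ x, f (t • x) = f x) {L : ℝ≥0} (hL : LipschitzOnWith L f (sphere 0 1)) :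
    ∀ᵐ x ∂(volume : Measure (EE n)), DifferentiableAt ℝ f x := by
  have : Nonempty (Fin n) := ⟨⟨0, hn⟩⟩
  have : Nontrivial (EE n) := inferInstance
  have h0 : ∀ᵐ x ∂(volume : Measure (EE n)), x ∉ ({0} : Set (EE n)) :=
    measure_eq_zero_iff_ae_notMem.1 (measure_singleton 0)
  have hk : ∀ k : ℕ, ∀ᵐ x ∂(volume : Measure (EE n)), x ∈ {y : EE n | 1 / ((k : ℝ) + 1) ≤ ‖y‖} →
      DifferentiableWithinAt ℝ f {y : EE n | 1 / ((k : ℝ) + 1) ≤ ‖y‖} x := fun k =>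
    (gp_lip_away hhom hL (r := 1 / ((k : ℝ) + 1)) (by positivity)).ae_differentiableWithinAt_of_mem
  filter_upwards [h0, ae_all_iff.2 hk] with x hx0 hx
  have hx' : 0 < ‖x‖ := norm_pos_iff.2 hx0
  obtain ⟨k, hk⟩ := exists_nat_one_div_lt hx'
  exact (hx k hk.le).differentiableAt (gp_away_nhds hk)

theorem gp_curve_hasDerivAt (p : EE n × EE n) (s : ℝ) :
    HasDerivAt (fun s : ℝ => (gpRot s p).1) (gpRot s p).2 s :=
  ((Real.hasDerivAt_cos s).smul_const p.1).add ((Real.hasDerivAt_sin s).smul_const p.2)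

theorem gp_curve_lipschitz (p : EE n × EE n) :
    LipschitzWith (‖p.1‖₊ + ‖p.2‖₊) (fun s : ℝ => (gpRot s p).1) := by
  refine lipschitzWith_of_nnnorm_deriv_le (fun s => (gp_curve_hasDerivAt p s).differentiableAt) fun s => ?_
  rw [(gp_curve_hasDerivAt p s).deriv, ← NNReal.coe_le_coe]
  push_cast
  calc ‖-Real.sin s • p.1 + Real.cos s • p.2‖ ≤ ‖-Real.sin s • p.1‖ + ‖Real.cos s • p.2‖ := norm_add_le _ _
    _ = |Real.sin s| * ‖p.1‖ + |Real.cos s| * ‖p.2‖ := by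
        rw [norm_smul, norm_smul, Real.norm_eq_abs, Real.norm_eq_abs, abs_neg]
    _ ≤ 1 * ‖p.1‖ + 1 * ‖p.2‖ := by
        gcongr
        · exact Real.abs_sin_le_one s
        · exact Real.abs_cos_le_one s
    _ = ‖p.1‖ + ‖p.2‖ := by ring

/-- the fundamental theorem of calculus along one path (absolutely continuous form). -/
theorem gp_lip_ftc {f : EE n → ℝ} (hhom : ∀ t : ℝ, 0 < t → ∀ x, f (t • x) = f x) {L : ℝ≥0}
    (hL : LipschitzOnWith L f (sphere 0 1)) (p : EE n × EE n) (h0 : ∀ s : ℝ, (gpRot s p).1 ≠ 0)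
    (hd : ∀ᵐ s ∂(volume.restrict (Ioc (0 : ℝ) (Real.pi / 2))), DifferentiableAt ℝ f (gpRot s p).1) :
    ENNReal.ofReal |f p.1 - f p.2|
      ≤ ∫⁻ s in Ioc (0 : ℝ) (Real.pi / 2), ENNReal.ofReal |gpD f (gpRot s p)| := by
  have hpi : (0 : ℝ) ≤ Real.pi / 2 := by positivity
  set c : ℝ → EE n := fun s => (gpRot s p).1 with hc
  have hcl := gp_curve_lipschitz p
  obtain ⟨s₀, -, hs₀⟩ := (isCompact_Icc (a := (0 : ℝ)) (b := Real.pi / 2)).exists_isMinOn
    (nonempty_Icc.2 hpi) (hcl.continuous.norm.continuousOn)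
  have hδ : 0 < ‖c s₀‖ := norm_pos_iff.2 (h0 s₀)
  have hmaps : MapsTo c (uIcc 0 (Real.pi / 2)) {y : EE n | ‖c s₀‖ ≤ ‖y‖} := by
    intro s hs
    rw [uIcc_of_le hpi] at hs
    exact hs₀ hs
  have hg := (gp_lip_away hhom hL hδ).comp (hcl.lipschitzOnWith) hmaps
  have hint := hg.absolutelyContinuousOnInterval.integral_deriv_eq_sub
  rw [intervalIntegral.integral_of_le hpi] at hint
  have e0 : (f ∘ c) 0 = f p.1 := by simp [hc, gpRot]
  have e1 : (f ∘ c) (Real.pi / 2) = f p.2 := by simp [hc, gpRot]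
  rw [e0, e1] at hint
  calc ENNReal.ofReal |f p.1 - f p.2| = ‖∫ s in Ioc (0 : ℝ) (Real.pi / 2), deriv (f ∘ c) s‖ₑ := by
        rw [hint, Real.enorm_eq_ofReal_abs, abs_sub_comm]
    _ ≤ ∫⁻ s in Ioc (0 : ℝ) (Real.pi / 2), ‖deriv (f ∘ c) s‖ₑ := enorm_integral_le_lintegral_enorm _
    _ = _ := by
        refine lintegral_congr_ae ?_
        filter_upwards [hd] with s hs
        have := hs.hasFDerivAt.comp_hasDerivAt s (gp_curve_hasDerivAt p s)
        rw [this.deriv, Real.enorm_eq_ofReal_abs]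
        rfl

/-- for almost every pair the path meets the non-differentiability set in a null set of times. -/
theorem gp_lip_ae_diff (hn : 1 ≤ n) {f : EE n → ℝ} (hhom : ∀ t : ℝ, 0 < t → ∀ x, f (t • x) = f x)
    {L : ℝ≥0} (hL : LipschitzOnWith L f (sphere 0 1)) :
    ∀ᵐ p : EE n × EE n ∂((gam n).prod (gam n)),
      ∀ᵐ s ∂(volume.restrict (Ioc (0 : ℝ) (Real.pi / 2))), DifferentiableAt ℝ f (gpRot s p).1 := by
  have hNm : MeasurableSet ({x : EE n | DifferentiableAt ℝ f x}ᶜ) :=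
    (measurableSet_of_differentiableAt ℝ f).compl
  have hN0 : gam n ({x : EE n | DifferentiableAt ℝ f x}ᶜ) = 0 :=
    Claimed.Agent.R260.gk_gam_ac_volume (ae_iff.1 (gp_lip_ae_differentiableAt hn hhom hL))
  have hcont : Continuous fun z : (EE n × EE n) × ℝ => (gpRot z.2 z.1).1 := by
    unfold gpRot
    fun_prop
  have hSm : MeasurableSet ((fun z : (EE n × EE n) × ℝ => (gpRot z.2 z.1).1) ⁻¹'
      ({x : EE n | DifferentiableAt ℝ f x}ᶜ)) := hcont.measurable hNm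
  have hsec : ∀ s : ℝ, ((gam n).prod (gam n)) ((fun p : EE n × EE n => (p, s)) ⁻¹'
      ((fun z : (EE n × EE n) × ℝ => (gpRot z.2 z.1).1) ⁻¹' ({x : EE n | DifferentiableAt ℝ f x}ᶜ))) = 0 := by
    intro s
    have hrm : Measurable (gpRot (n := n) s) := by
      have : Continuous (gpRot (n := n) s) := by
        unfold gpRot
        fun_prop
      exact this.measurable
    have e2 : ((gam n).prod (gam n)) (gpRot s ⁻¹' (Prod.fst ⁻¹' ({x : EE n | DifferentiableAt ℝ f x}ᶜ))) = 0 := by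
      rw [← Measure.map_apply hrm (measurable_fst hNm), gp_rot_map, ← Set.prod_univ,
        Measure.prod_prod, hN0, zero_mul]
    exact e2
  have hS0 : (((gam n).prod (gam n)).prod (volume.restrict (Ioc (0 : ℝ) (Real.pi / 2))))
      ((fun z : (EE n × EE n) × ℝ => (gpRot z.2 z.1).1) ⁻¹' ({x : EE n | DifferentiableAt ℝ f x}ᶜ)) = 0 := by
    rw [Measure.prod_apply_symm hSm]
    exact (lintegral_congr fun s => hsec s).trans lintegral_zero
  have h1 := Measure.ae_ae_of_ae_prod (measure_eq_zero_iff_ae_notMem.1 hS0)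
  filter_upwards [h1] with p hp
  filter_upwards [hp] with s hs
  by_contra hcon
  exact hs hcon

theorem gp_lip_ftc_ae (hn : 2 ≤ n) {f : EE n → ℝ} (hhom : ∀ t : ℝ, 0 < t → ∀ x, f (t • x) = f x)
    {L : ℝ≥0} (hL : LipschitzOnWith L f (sphere 0 1)) :
    ∀ᵐ p : EE n × EE n ∂((gam n).prod (gam n)), ENNReal.ofReal |f p.1 - f p.2|
      ≤ ∫⁻ s in Ioc (0 : ℝ) (Real.pi / 2), ENNReal.ofReal |gpD f (gpRot s p)| := by
  filter_upwards [gp_path_ne hn, gp_lip_ae_diff (by omega) hhom hL] with p h0 hd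
  exact gp_lip_ftc hhom hL p h0 hd

/-- **EXIT (Lipschitz form).** -/
theorem gp_main_lip (hn : 2 ≤ n) {f : EuclideanSpace ℝ (Fin n) → ℝ}
    (hhom : ∀ t : ℝ, 0 < t → ∀ x, f (t • x) = f x) {L : ℝ≥0}
    (hL : LipschitzOnWith L f (sphere 0 1)) (hb : ∀ x, |f x| ≤ 1) :
    (n : ℝ) * ((∫ x, f x ^ 2 ∂stdGaussian (EuclideanSpace ℝ (Fin n)))
        - (∫ x, f x ∂stdGaussian (EuclideanSpace ℝ (Fin n))) ^ 2)
      - ∑ i, (∫ x, x i * f x ∂stdGaussian (EuclideanSpace ℝ (Fin n))) ^ 2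
      ≤ Real.sqrt (2 / Real.pi) * (Real.pi * n / 2 - 1)
          * ∫ x, ‖fderiv ℝ f x‖ ∂stdGaussian (EuclideanSpace ℝ (Fin n)) :=
  gp_main_abs hn hhom (gp_lip_measurable hhom hL) hb (gp_lip_fderiv_bdd hhom hL)
    (gp_lip_ftc_ae hn hhom hL)

end Claimed.Agent.R323
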